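import Crest.Agent.H0188.NonAdd

/-! The separable algebra generated by the coordinates. -/

set_option autoImplicit false

namespace Crest.Agent.H0188

open TopologicalSpace BoundedContinuousFunction
open scoped ENNReal

theorem exists_sep {A ι : Type} [CStarAlgebra A] [Countable ι] (a : ι → A) :
    ∃ S : StarSubalgebra ℂ A, IsClosed (S : Set A) ∧ SeparableSpace S ∧ ∀ i, a i ∈ S := by
  refine ⟨(StarAlgebra.adjoin ℂ (Set.range a)).topologicalClosure,
    StarSubalgebra.isClosed_topologicalClosure _, IsSeparable.separableSpace ?_, fun i =>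
    StarSubalgebra.le_topologicalClosure _ (StarAlgebra.subset_adjoin ℂ _ ⟨i, rfl⟩)⟩
  refine IsSeparable.closure ?_
  have h : (Set.range a ∪ star (Set.range a)).Countable := (Set.countable_range a).union
    ((Set.countable_range a).preimage_of_injOn star_injective.injOn)
  have h2 : (Submonoid.closure (Set.range a ∪ star (Set.range a)) : Set A).Countable := by
    have := h.to_subtype
    rw [Submonoid.closure_eq_mrange]
    have : Countable (FreeMonoid ↥(Set.range a ∪ star (Set.range a))) :=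
      inferInstanceAs (Countable (List _))
    exact Set.countable_range _
  have := h2.isSeparable.span (R := ℂ)
  rwa [← StarAlgebra.adjoin_eq_span] at this

/-- tuples of self-adjoint contractions -/
abbrev Con (B : Type) [CStarAlgebra B] : Type :=
  {s : Fin 4 → B // ∀ i, IsSelfAdjoint (s i) ∧ ‖s i‖ ≤ 1}

theorem exists_univ (B : ℕ → Type) [∀ M, CStarAlgebra (B M)] [∀ M, Nontrivial (B M)]
    (u : ∀ M, Fin 4 → B M) (hu : ∀ M i, u M i ∈ unitary (B M)) :
    ∃ (A : Type) (_ : CStarAlgebra A) (_ : SeparableSpace A) (U : Fin 4 → A) (S : Con A)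
      (ev : ∀ M, Con (B M) → A →⋆ₐ[ℂ] B M), (∀ i, U i ∈ unitary A) ∧
      (∀ M a, Continuous fun k => ev M k a) ∧ (∀ M k i, ev M k (U i) = u M i) ∧
      ∀ M k i, ev M k (S.1 i) = k.1 i := by
  have : ∀ M, Nontrivial (Con (B M) →ᵇ B M) := fun M => ⟨0, 1, fun h =>
    zero_ne_one (DFunLike.congr_fun h ⟨0, fun _ => ⟨.zero _, by simp⟩⟩)⟩
  let _ : CStarAlgebra (lp (fun M => Con (B M) →ᵇ B M) ∞) := {}
  let U : Fin 4 → lp (fun M => Con (B M) →ᵇ B M) ∞ := fun i =>
    ⟨fun M => const _ (u M i), memℓp_infty ⟨1, by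
      rintro _ ⟨M, rfl⟩
      exact (norm_const_le _).trans_eq (CStarRing.norm_of_mem_unitary (hu M i))⟩⟩
  let c : ∀ i M, Con (B M) →ᵇ B M := fun i M =>
    ofNormedAddCommGroup (fun k => k.1 i) ((continuous_apply i).comp continuous_subtype_val) 1
      fun k => (k.2 i).2
  have hc : ∀ i M, ‖c i M‖ ≤ 1 := fun i M => norm_ofNormedAddCommGroup_le _ zero_le_one _
  let S : Fin 4 → lp (fun M => Con (B M) →ᵇ B M) ∞ := fun i =>
    ⟨c i, memℓp_infty ⟨1, by rintro _ ⟨M, rfl⟩; exact hc i M⟩⟩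
  obtain ⟨A, h1, h2, h3⟩ := exists_sep (Sum.elim U S)
  refine ⟨A, inferInstance, h2, fun i => ⟨U i, h3 (.inl i)⟩, ⟨fun i => ⟨S i, h3 (.inr i)⟩,
    fun i => ⟨Subtype.ext (lp.ext (funext fun M => BoundedContinuousFunction.ext fun k =>
      (k.2 i).1)), lp.norm_le_of_forall_le zero_le_one (hc i)⟩⟩, fun M k =>
    { toFun := fun a => a.1 M k
      map_one' := rfl
      map_mul' := fun _ _ => rfl
      map_zero' := rfl
      map_add' := fun _ _ => rfl
      commutes' := fun _ => rfl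
      map_star' := fun _ => rfl }, fun i => ⟨?_, ?_⟩, fun M a => (a.1 M).continuous,
    fun _ _ _ => rfl, fun _ _ _ => rfl⟩
  · exact Subtype.ext (lp.ext (funext fun M => BoundedContinuousFunction.ext fun k => (hu M i).1))
  · exact Subtype.ext (lp.ext (funext fun M => BoundedContinuousFunction.ext fun k => (hu M i).2))

theorem main_of' (B : Type) [CStarAlgebra B] [SeparableSpace B] (h : NP B) (u : Fin 4 → B)
    (s : Con B) (hu : ∀ i, u i ∈ unitary B) (y : B)
    (hY : (7 / 18 : ℝ) • 1 - ∑ i, (u i * s.1 i * star (u i) - s.1 i) = -(star y * y)) :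
    ∃ (A : Type) (_ : CStarAlgebra A), TopologicalSpace.SeparableSpace A ∧
      (∃ τ : A → ℂ, OpAlg.IsNormalizedTwoQuasitrace τ) ∧
      ∃ a b : A, (∃ x : A, a = star x * x) ∧ ‖a‖ ≤ 1 ∧ (∃ y : A, b = star y * y) ∧ ‖b‖ ≤ 1 ∧
        ∀ τ : A → ℂ, OpAlg.IsNormalizedTwoQuasitrace τ →
          (1 : ℝ) / 144 ≤ (τ (a + b) - τ a - τ b).re := by
  let _ := CStarAlgebra.spectralOrder B
  have := CStarAlgebra.spectralOrderedRing B
  have h1 : ∀ x : B, IsSelfAdjoint x → ‖x‖ ≤ 1 → 0 ≤ (1 / 2 : ℝ) • (1 - x) := fun x hx h =>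
    smul_nonneg (by norm_num) (sub_nonneg.2 (hx.le_algebraMap_norm_self.trans (by
      simpa [Algebra.algebraMap_eq_smul_one] using smul_le_smul_of_nonneg_right h (zero_le_one' B))))
  refine main_of B h (fun i => (1 / 2 : ℝ) • (1 - -s.1 i)) u
    (fun i => h1 _ (s.2 i).1.neg (by simpa using (s.2 i).2)) (fun i => ?_) hu ?_
  · rw [← sub_nonneg]
    convert h1 _ (s.2 i).1 (s.2 i).2 using 1
    module
  · rw [← sub_nonneg]
    convert smul_nonneg (show (0 : ℝ) ≤ 1 / 2 by norm_num) (star_mul_self_nonneg y) using 1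
    rw [← neg_neg (star y * y), ← hY]
    simp only [Fin.sum_univ_four, mul_sub, sub_mul, smul_sub, mul_smul_comm, smul_mul_assoc,
      mul_one, (hu _).2, mul_neg, neg_mul]
    module

end Crest.Agent.H0188
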