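import Crest.Agent.H0188.Defs
import Crest.Agent.H0069.KF

/-! A two-parameter Borsuk–Ulam theorem, by mod 2 chains on tuples. -/

set_option autoImplicit false

namespace Crest.Agent.H0188

open Module Metric Matrix
open Crest.Agent.H0069

section cupw
variable {X : Type*}

def buEta (s : X → F2) (β : Co X) : Co X
  | [] => 0
  | x :: l => s x * β (x :: l)

def buStp (s : X → F2) (β : Co X) : Co X
  | [] => 0
  | [_] => 0
  | x :: y :: l => (s x + s y) * β (y :: l)

def buOm : List (X → F2) → Co X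
  | [] => fun l => if l.length = 1 then 1 else 0
  | s :: S => buStp s (buOm S)

theorem bu_dl_smul (c : F2) (l : List X) :
    ∀ γ : Co X, dl l (fun m => c * γ m) = c * dl l γ := by
  induction l with
  | nil => intro γ; simp [dl]
  | cons x l ih => intro γ; simp only [dl]; rw [ih (fun m => γ (x :: m))]; ring

theorem cob_buEta (s : X → F2) (β : Co X) (hβ : cob β = 0) : cob (buEta s β) = buStp s β := by
  funext l
  match l with
  | [] => rfl
  | [x] => simp [cob_apply, dl, buEta, buStp]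
  | x :: y :: l =>
    have h1 : cob β (x :: y :: l) = 0 := by rw [hβ]; rfl
    have h2 : dl (y :: l) (fun m => buEta s β (x :: m)) =
        s x * dl (y :: l) (fun m => β (x :: m)) := bu_dl_smul (s x) (y :: l) _
    have h3 : cob β (x :: y :: l) = β (y :: l) + dl (y :: l) (fun m => β (x :: m)) := rfl
    have h4 : cob (buEta s β) (x :: y :: l) =
      s y * β (y :: l) + dl (y :: l) (fun m => buEta s β (x :: m)) := rfl
    rw [h3] at h1
    rw [h4, h2, ← f2_eq_of_add h1]
    simp only [buStp]; ring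

theorem cob_buOm (S : List (X → F2)) : cob (buOm S) = 0 := by
  induction S with
  | nil =>
    funext l
    match l with
    | [] => rfl
    | [x] => simp [cob_apply, dl, buOm]
    | [x, y] => simp [cob_apply, dl, buOm, f2_add_self]
    | x :: y :: z :: l =>
      apply dl_eq_zero
      intro m hm _
      simp only [List.length_cons] at hm
      simp only [buOm]
      rw [if_neg (by omega)]
  | cons s S ih => rw [buOm, ← cob_buEta s _ ih, cob_cob]

theorem buOm_cons (s : X → F2) (S : List (X → F2)) :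
    buOm (s :: S) = cob (buEta s (buOm S)) := (cob_buEta s _ (cob_buOm S)).symm

theorem buOm_nil (S : List (X → F2)) : buOm S [] = 0 := by
  cases S <;> simp [buOm, buStp]

theorem buOm_inv (g : X → X) (P : X → Prop) (S : List (X → F2))
    (hS : ∀ s ∈ S, ∃ c, ∀ z, P z → s (g z) = s z + c) :
    ∀ l : List X, (∀ a ∈ l, P a) → buOm S (l.map g) = buOm S l := by
  induction S with
  | nil => intro l _; simp [buOm]
  | cons s S ih =>
    have ih := ih fun s' hs' => hS s' (List.mem_cons_of_mem _ hs')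
    obtain ⟨c, hc⟩ := hS s List.mem_cons_self
    intro l hl
    match l, hl with
    | [], _ => rfl
    | [x], _ => rfl
    | x :: y :: l, hl =>
      have h1 := ih (y :: l) fun a ha => hl a (List.mem_cons_of_mem _ ha)
      simp only [List.map_cons] at h1
      simp only [buOm, buStp, List.map_cons, h1, hc x (hl x (by simp)), hc y (hl y (by simp))]
      linear_combination (buOm S (y :: l)) * f2_add_self c

theorem buEta_norm (g : X → X) (P : X → Prop) (s : X → F2) (S : List (X → F2)) (c : F2)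
    (hs : ∀ z, P z → s (g z) = s z + c) (hS : ∀ s ∈ S, ∃ c, ∀ z, P z → s (g z) = s z + c)
    (l : List X) (hl : ∀ a ∈ l, P a) :
    buEta s (buOm S) l + buEta s (buOm S) (l.map g) = c * buOm S l := by
  match l, hl with
  | [], _ => simp [buEta, buOm_nil]
  | x :: l, hl =>
    have h1 := buOm_inv g P S hS (x :: l) hl
    simp only [List.map_cons] at h1
    simp only [buEta, List.map_cons, h1, hs x (hl x (by simp))]
    linear_combination (buOm S (x :: l)) * f2_add_self (s x)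

theorem buOm_eq_zero (S : List (X → F2)) (s : X → F2) (hs : s ∈ S) (c : F2) :
    ∀ l : List X, (∀ a ∈ l, s a = c) → buOm S l = 0 := by
  induction S with
  | nil => simp at hs
  | cons s' S ih =>
    intro l hl
    match l, hl with
    | [], _ => rfl
    | [x], _ => rfl
    | x :: y :: l, hl =>
      simp only [buOm, buStp]
      rcases List.mem_cons.1 hs with rfl | h
      · rw [hl x (by simp), hl y (by simp), f2_add_self, zero_mul]
      · rw [ih h (y :: l) fun a ha => hl a (List.mem_cons_of_mem _ ha), mul_zero]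

theorem bu_pl_comm (f g k : X → X) (hf : ∀ x, f (k x) = k (f x)) (hg : ∀ x, g (k x) = k (g x))
    (l : List X) : ∀ γ : Co X, pl f g (l.map k) γ = pl f g l (pb k γ) := by
  induction l with
  | nil => intro γ; rfl
  | cons x l ih =>
    intro γ
    simp only [List.map_cons, pl, ih, pb_apply, hf, hg, List.map_map]
    have : g ∘ k = k ∘ g := funext hg
    rw [this]
    rfl

end cupw

theorem bu_susp {Z : Type*} [PseudoMetricSpace Z] (g : Z → Z) (hg : ∀ z, g (g z) = z)
    (hgd : ∀ z z', dist (g z) (g z') ≤ dist z z') (F : ℝ → Z → Z) (F0 : ∀ z, F 0 z = z)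
    (F1 : ∀ z, F 1 (g z) = F 1 z) (R R' : Z → Prop) (hRg : ∀ z, R z → R (g z))
    (hR : ∀ t, 0 ≤ t → t ≤ 1 → ∀ z, R z → R' (F t z))
    (hd : ∀ t t' z z', 0 ≤ t → t ≤ 1 → R z' →
      dist (F t z) (F t' z') ≤ dist z z' + 2 * |t - t'|) (ε : ℝ) (hε : 0 < ε) :
    ∃ T : Co Z →+ Co Z, (∀ γ, T (cob γ) = cob (T γ) + (γ + pb g γ)) ∧
      (∀ γ, pb g (T γ) = T γ) ∧ (∀ γ, T γ [] = 0) ∧
      (∀ (e : Ch Z) (δ : ℝ), Supp e (fun l => (∀ a ∈ l, R a) ∧ small δ l) →
        Supp (e.comp T) (fun l => (∀ a ∈ l, R' a) ∧ small (δ + ε) l)) ∧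
      ∀ (k : Z → Z) (P : Z → Prop), (∀ z, g (k z) = k (g z)) → (∀ t z, F t (k z) = k (F t z)) →
        (∀ z, P z → P (g z)) → (∀ t z, P z → P (F t z)) → ∀ γ : Co Z,
        (∀ l : List Z, (∀ a ∈ l, P a) → γ (l.map k) = γ l) →
        ∀ l : List Z, (∀ a ∈ l, P a) → T γ (l.map k) = T γ l := by
  obtain ⟨J, hJ⟩ := exists_nat_gt (2 / ε)
  have hJ0 : (0 : ℝ) < J := lt_trans (by positivity) hJ
  have hJε : 2 * (1 / (J : ℝ)) ≤ ε := by
    rw [mul_one_div, div_le_iff₀ hJ0]
    rw [div_lt_iff₀ hε] at hJ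
    nlinarith
  set f : ℕ → Z → Z := fun j => F ((j : ℝ) / J) with hf
  have gg : ∀ γ : Co Z, pb g (pb g γ) = γ := by
    intro γ; funext l; simp [pb_apply, Function.comp_def, hg]
  have happ : ∀ γ l, (tele f J + (pb g).comp (tele f J)) γ l =
      tele f J γ l + tele f J γ (l.map g) := fun _ _ => rfl
  refine ⟨tele f J + (pb g).comp (tele f J), ?_, ?_, ?_, ?_, ?_⟩
  · intro γ
    have h1 := tele_prism f J γ
    have h0 : pb (f 0) γ = γ := by
      funext l
      have : f 0 = id := by funext z; simp [hf, F0]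
      simp [pb_apply, this]
    have h2 : pb g (pb (f J) γ) = pb (f J) γ := by
      funext l
      have : f J ∘ g = f J := by funext z; simp [hf, div_self hJ0.ne', F1]
      simp [pb_apply, this]
    have h3 := congrArg (pb g) h1
    rw [map_add, map_add, h2, h0, ← cob_pb] at h3
    rw [h0] at h1
    simp only [AddMonoidHom.add_apply, AddMonoidHom.comp_apply, map_add]
    have e1 := co_add_self (pb (f J) γ)
    have e2 := co_add_self (cob (tele f J γ))
    have e3 := co_add_self (cob (pb g (tele f J γ)))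
    linear_combination h1 + h3 + e1 - e2 - e3
  · intro γ
    simp only [AddMonoidHom.add_apply, AddMonoidHom.comp_apply, map_add, gg]
    exact add_comm _ _
  · intro γ
    rw [happ]; exact f2_add_self _
  · intro e δ he
    apply he.comp
    have key : ∀ γ : Co Z, (∀ m : List Z, (∀ a ∈ m, R' a) ∧ small (δ + ε) m → γ m = 0) →
        ∀ l : List Z, (∀ a ∈ l, R a) ∧ small δ l → tele f J γ l = 0 := by
      rintro γ hγ l ⟨h2, h3⟩
      apply tele_eq_zero
      intro j hj m _ hb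
      have hb' : ∀ b ∈ m, ∃ a ∈ l, ∃ j' : ℕ, (j' = j ∨ j' = j + 1) ∧ b = f j' a := by
        intro b hb1
        obtain ⟨a, ha, h | h⟩ := hb b hb1
        · exact ⟨a, ha, j, Or.inl rfl, h⟩
        · exact ⟨a, ha, j + 1, Or.inr rfl, h⟩
      have ht : ∀ j' : ℕ, (j' = j ∨ j' = j + 1) → 0 ≤ (j' : ℝ) / J ∧ (j' : ℝ) / J ≤ 1 := by
        intro j' hj'
        refine ⟨by positivity, ?_⟩
        rw [div_le_one hJ0]
        exact_mod_cast (by omega : j' ≤ J)
      apply hγ
      constructor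
      · intro b hb1
        obtain ⟨a, ha, j', hj', rfl⟩ := hb' b hb1
        exact hR _ (ht j' hj').1 (ht j' hj').2 a (h2 a ha)
      · intro b hb1 b' hb2
        obtain ⟨a, ha, j1, hj1, rfl⟩ := hb' b hb1
        obtain ⟨a', ha', j2, hj2, rfl⟩ := hb' b' hb2
        have htt : |(j1 : ℝ) / J - (j2 : ℝ) / J| ≤ 1 / J := by
          rw [← sub_div, abs_div, abs_of_pos hJ0]
          apply div_le_div_of_nonneg_right _ hJ0.le
          rcases hj1 with rfl | rfl <;> rcases hj2 with rfl | rfl <;> simp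
        have := hd _ ((j2 : ℝ) / J) a a' (ht j1 hj1).1 (ht j1 hj1).2 (h2 a' ha')
        have h4 := h3 a ha a' ha'
        simp only [hf]
        linarith
    rintro γ hγ l ⟨h2, h3⟩
    rw [happ, key γ hγ l ⟨h2, h3⟩, key γ hγ (l.map g), add_zero]
    constructor
    · intro a ha
      obtain ⟨b, hb, rfl⟩ := List.mem_map.1 ha
      exact hRg b (h2 b hb)
    · intro a ha b hb
      obtain ⟨a', ha', rfl⟩ := List.mem_map.1 ha
      obtain ⟨b', hb', rfl⟩ := List.mem_map.1 hb
      exact (hgd _ _).trans (h3 _ ha' _ hb')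
  · intro k P hgk hFk hPg hPF γ hγ
    have key : ∀ l : List Z, (∀ a ∈ l, P a) → tele f J γ (l.map k) = tele f J γ l := by
      intro l hl
      have e1 : tele f J γ (l.map k) = tele f J (pb k γ) l := by
        simp only [tele, AddMonoidHom.finsetSum_apply, Finset.sum_apply]
        apply Finset.sum_congr rfl
        intro j _
        exact bu_pl_comm _ _ k (hFk _) (hFk _) l γ
      apply f2_eq_of_add
      rw [e1, ← Pi.add_apply, ← map_add]
      apply tele_eq_zero
      intro j _ m _ hb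
      rw [Pi.add_apply, pb_apply, hγ m, f2_add_self]
      intro b hb1
      obtain ⟨a, ha, rfl | rfl⟩ := hb b hb1 <;> exact hPF _ a (hl a ha)
    intro l hl
    have e : (l.map k).map g = (l.map g).map k := by
      rw [List.map_map, List.map_map]
      exact List.map_congr_left fun a _ => hgk a
    rw [happ, happ, key l hl, e, key (l.map g)]
    intro a ha
    obtain ⟨b, hb, rfl⟩ := List.mem_map.1 ha
    exact hPg b (hl b hb)

section pole
variable {n : ℕ}

def buPole (n i : ℕ) : Fin n → ℝ := fun k => if k.val = i then 1 else 0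

def buR (i : ℕ) (x : Fin n → ℝ) : Prop := x ∈ S1 (Fin n) ∧ ∀ k : Fin n, i < k.val → x k = 0

def buF (i : ℕ) (t : ℝ) (x : Fin n → ℝ) : Fin n → ℝ := (1 - t) • x + t • buPole n i

theorem buPole_sum {i : ℕ} (hi : i < n) : ∑ k, buPole n i k = 1 := by
  rw [Finset.sum_eq_single ⟨i, hi⟩]
  · simp [buPole]
  · intro b _ hb
    have : b.val ≠ i := fun h => hb (Fin.ext h)
    simp [buPole, this]
  · simp

theorem buPole_nonneg (i : ℕ) (k : Fin n) : 0 ≤ buPole n i k := by
  unfold buPole; split_ifs <;> norm_num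

theorem buPole_le (i : ℕ) (k : Fin n) : buPole n i k ≤ 1 := by
  unfold buPole; split_ifs <;> norm_num

theorem buR_pole (hn : 0 < n) : buR 0 (buPole n 0) := by
  refine ⟨?_, fun k hk => by simp [buPole, hk.ne']⟩
  show ∑ k, |buPole n 0 k| = 1
  simp only [abs_of_nonneg (buPole_nonneg _ _), buPole_sum hn]

theorem buR_neg {i : ℕ} {x : Fin n → ℝ} (h : buR i x) : buR i (-x) :=
  ⟨S1_neg h.1, fun k hk => by simp [h.2 k hk]⟩

theorem buR_F {i : ℕ} (hi : i + 1 < n) {t : ℝ} (t0 : 0 ≤ t) (t1 : t ≤ 1) {x : Fin n → ℝ}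
    (h : buR i x) : buR (i + 1) (buF (i + 1) t x) := by
  constructor
  · have : ∀ k, |buF (i + 1) t x k| = (1 - t) * |x k| + t * buPole n (i + 1) k := by
      intro k
      by_cases hk : k.val = i + 1
      · have := h.2 k (by omega)
        simp [buF, buPole, hk, this, abs_of_nonneg t0]
      · simp [buF, buPole, hk, abs_mul, abs_of_nonneg (sub_nonneg.2 t1)]
    have aS : ∑ k, |x k| = 1 := h.1
    show ∑ k, |buF (i + 1) t x k| = 1
    simp only [this, Finset.sum_add_distrib, ← Finset.mul_sum, aS, buPole_sum hi]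
    ring
  · intro k hk
    have h1 : k.val ≠ i + 1 := by omega
    simp [buF, buPole, h1, h.2 k (by omega)]

theorem buF_dist (i : ℕ) {t t' : ℝ} (t0 : 0 ≤ t) (t1 : t ≤ 1) (x : Fin n → ℝ) {x' : Fin n → ℝ}
    (h : x' ∈ S1 (Fin n)) : dist (buF i t x) (buF i t' x') ≤ dist x x' + 2 * |t - t'| := by
  rw [dist_pi_le_iff (by positivity)]
  intro k
  have hdk := dist_le_pi_dist x x' k
  rw [Real.dist_eq] at hdk ⊢
  have hak := S1_abs_le h k
  have e : buF i t x k - buF i t' x' k =
      (1 - t) * (x k - x' k) + (t - t') * (buPole n i k - x' k) := by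
    simp only [buF, Pi.add_apply, Pi.smul_apply, smul_eq_mul]; ring
  rw [e]
  refine (abs_add_le _ _).trans ?_
  rw [abs_mul, abs_mul, abs_of_nonneg (sub_nonneg.2 t1)]
  have h5 : |buPole n i k - x' k| ≤ 2 := by
    refine (abs_sub _ _).trans ?_
    rw [abs_of_nonneg (buPole_nonneg _ _)]
    linarith [buPole_le i k]
  have h6 : (1 - t) * |x k - x' k| ≤ dist x x' := by
    nlinarith [abs_nonneg (x k - x' k)]
  have h7 : |t - t'| * |buPole n i k - x' k| ≤ |t - t'| * 2 :=
    mul_le_mul_of_nonneg_left h5 (abs_nonneg _)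
  linarith

end pole

section core
variable {n m : ℕ}

def buG1 (z : (Fin n → ℝ) × (Fin m → ℝ)) : (Fin n → ℝ) × (Fin m → ℝ) := (-z.1, z.2)
def buG2 (z : (Fin n → ℝ) × (Fin m → ℝ)) : (Fin n → ℝ) × (Fin m → ℝ) := (z.1, -z.2)

theorem bu_S1_ne {κ : Type*} [Fintype κ] {x : κ → ℝ} (h : x ∈ S1 κ) : x ≠ 0 := by
  rintro rfl
  exact S1_ne_neg h (by simp)

theorem bu_core1 (hm : 0 < m) (i : ℕ) (hi : i < n) : ∀ ε > (0 : ℝ),
    ∃ e : Ch ((Fin n → ℝ) × (Fin m → ℝ)),
      Supp e (fun l => (∀ z ∈ l, buR i z.1 ∧ buR 0 z.2) ∧ small ε l) ∧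
      (∀ γ : Co ((Fin n → ℝ) × (Fin m → ℝ)), γ [] = 0 →
        (∀ l, (∀ z ∈ l, z.1 ≠ 0) → γ (l.map buG1) = γ l) → e (cob γ) = 0) ∧
      ∀ S : List ((Fin n → ℝ) × (Fin m → ℝ) → F2), S.length = i →
        (∀ s ∈ S, ∀ z, z.1 ≠ 0 → s (buG1 z) = s z + 1) → e (buOm S) = 1 := by
  induction i with
  | zero =>
    intro ε hε
    refine ⟨ev [(buPole n 0, buPole m 0)], ?_, ?_, ?_⟩
    · refine (supp_ev _).mono ?_
      rintro l rfl
      constructor
      · intro z hz
        rw [List.mem_singleton.1 hz]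
        exact ⟨buR_pole hi, buR_pole hm⟩
      · intro a ha b hb
        rw [List.mem_singleton.1 ha, List.mem_singleton.1 hb, dist_self]; exact hε.le
    · intro γ h0 _
      simp [ev_apply, cob_apply, dl, h0]
    · intro S hS _
      rw [List.length_eq_zero_iff.1 hS]
      simp [ev_apply, buOm]
  | succ i ih =>
    intro ε hε
    obtain ⟨e, hs, hc, ha⟩ := ih (by omega) (ε / 2) (by positivity)
    obtain ⟨T, T1, T2, T3, T4, -⟩ := bu_susp (Z := (Fin n → ℝ) × (Fin m → ℝ)) buG1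
      (fun z => by simp [buG1]) (fun z z' => by simp [buG1, Prod.dist_eq])
      (fun t z => (buF (i + 1) t z.1, z.2)) (fun z => by simp [buF])
      (fun z => by simp [buF, buG1]) (fun z => buR i z.1 ∧ buR 0 z.2)
      (fun z => buR (i + 1) z.1 ∧ buR 0 z.2) (fun z hz => ⟨buR_neg hz.1, hz.2⟩)
      (fun t t0 t1 z hz => ⟨buR_F hi t0 t1 hz.1, hz.2⟩)
      (fun t t' z z' t0 t1 hz => by
        have h1 := buF_dist (i + 1) (t' := t') t0 t1 z.1 hz.1.1
        have h2 : dist z.1 z'.1 ≤ dist z z' := le_max_left _ _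
        have h3 : dist z.2 z'.2 ≤ dist z z' := le_max_right _ _
        have h4 := abs_nonneg (t - t')
        rw [Prod.dist_eq]
        exact max_le (by linarith) (by linarith)) (ε / 2) (by positivity)
    have key : ∀ γ, e (T (cob γ)) = e (γ + pb buG1 γ) := by
      intro γ
      rw [T1, map_add, hc (T γ) (T3 γ) (fun l _ => congrFun (T2 γ) l), zero_add]
    refine ⟨e.comp T, by simpa using T4 e _ hs, ?_, ?_⟩
    · intro γ _ hγ
      rw [AddMonoidHom.comp_apply, key]
      apply hs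
      rintro l ⟨h1, _⟩
      rw [Pi.add_apply, pb_apply, hγ l fun z hz => bu_S1_ne (h1 z hz).1.1, f2_add_self]
    · intro S hS h
      match S, hS, h with
      | s :: S, hS, h =>
        rw [AddMonoidHom.comp_apply, buOm_cons, key, hs.congr (β := buOm S)]
        · exact ha S (by simpa using hS) fun s' hs' => h s' (List.mem_cons_of_mem _ hs')
        · rintro l ⟨h1, _⟩
          rw [Pi.add_apply, pb_apply, buEta_norm buG1 (fun z => z.1 ≠ 0) s S 1
            (h s List.mem_cons_self) (fun s' hs' => ⟨1, h s' (List.mem_cons_of_mem _ hs')⟩) l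
            (fun z hz => bu_S1_ne (h1 z hz).1.1), one_mul]

theorem bu_core2 (i : ℕ) (hi : i < n) (j : ℕ) (hj : j < m) : ∀ ε > (0 : ℝ),
    ∃ e : Ch ((Fin n → ℝ) × (Fin m → ℝ)),
      Supp e (fun l => (∀ z ∈ l, z.1 ∈ S1 (Fin n) ∧ buR j z.2) ∧ small ε l) ∧
      (∀ γ : Co ((Fin n → ℝ) × (Fin m → ℝ)), γ [] = 0 →
        (∀ l, (∀ z ∈ l, z.1 ≠ 0) → γ (l.map buG1) = γ l) → pb buG2 γ = γ → e (cob γ) = 0) ∧
      ∀ S S' : List ((Fin n → ℝ) × (Fin m → ℝ) → F2), S.length = j → S'.length = i →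
        (∀ s ∈ S, (∀ z, z.1 ≠ 0 → s (buG1 z) = s z + 0) ∧ ∀ z, z.2 ≠ 0 → s (buG2 z) = s z + 1) →
        (∀ s ∈ S', (∀ z, z.1 ≠ 0 → s (buG1 z) = s z + 1) ∧ ∀ z, z.2 ≠ 0 → s (buG2 z) = s z + 1) →
        e (buOm (S ++ S')) = 1 := by
  induction j with
  | zero =>
    intro ε hε
    obtain ⟨e, hs, hc, ha⟩ := bu_core1 hj i hi ε hε
    refine ⟨e, hs.mono fun l hl => ⟨fun z hz => ⟨(hl.1 z hz).1.1, (hl.1 z hz).2⟩, hl.2⟩,
      fun γ h0 h1 _ => hc γ h0 h1, ?_⟩
    intro S S' hS hS' _ h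
    rw [List.length_eq_zero_iff.1 hS, List.nil_append]
    exact ha S' hS' fun s hs' => (h s hs').1
  | succ j ih =>
    intro ε hε
    obtain ⟨e, hs, hc, ha⟩ := ih (by omega) (ε / 2) (by positivity)
    obtain ⟨T, T1, T2, T3, T4, T5⟩ := bu_susp (Z := (Fin n → ℝ) × (Fin m → ℝ)) buG2
      (fun z => by simp [buG2]) (fun z z' => by simp [buG2, Prod.dist_eq])
      (fun t z => (z.1, buF (j + 1) t z.2)) (fun z => by simp [buF])
      (fun z => by simp [buF, buG2]) (fun z => z.1 ∈ S1 (Fin n) ∧ buR j z.2)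
      (fun z => z.1 ∈ S1 (Fin n) ∧ buR (j + 1) z.2) (fun z hz => ⟨hz.1, buR_neg hz.2⟩)
      (fun t t0 t1 z hz => ⟨hz.1, buR_F hj t0 t1 hz.2⟩)
      (fun t t' z z' t0 t1 hz => by
        have h1 := buF_dist (j + 1) (t' := t') t0 t1 z.2 hz.2.1
        have h2 : dist z.1 z'.1 ≤ dist z z' := le_max_left _ _
        have h3 : dist z.2 z'.2 ≤ dist z z' := le_max_right _ _
        have h4 := abs_nonneg (t - t')
        rw [Prod.dist_eq]
        exact max_le (by linarith) (by linarith)) (ε / 2) (by positivity)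
    have key : ∀ γ : Co ((Fin n → ℝ) × (Fin m → ℝ)),
        (∀ l, (∀ z ∈ l, z.1 ≠ 0) → γ (l.map buG1) = γ l) →
        e (T (cob γ)) = e (γ + pb buG2 γ) := by
      intro γ hγ
      rw [T1, map_add, hc (T γ) (T3 γ) (T5 buG1 (fun z => z.1 ≠ 0) (fun _ => rfl)
        (fun _ _ => rfl) (fun _ h => h) (fun _ _ h => h) γ hγ) (T2 γ), zero_add]
    refine ⟨e.comp T, by simpa using T4 e _ hs, ?_, ?_⟩
    · intro γ _ hγ h2
      rw [AddMonoidHom.comp_apply, key γ hγ, h2, co_add_self, map_zero]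
    · intro S S' hS hS' h h'
      match S, hS, h with
      | s :: S, hS, h =>
        have h1 : ∀ s' ∈ S ++ S', ∃ c, ∀ z, z.1 ≠ 0 → s' (buG1 z) = s' z + c := by
          intro s' hs'
          rcases List.mem_append.1 hs' with h3 | h3
          · exact ⟨0, (h s' (List.mem_cons_of_mem _ h3)).1⟩
          · exact ⟨1, (h' s' h3).1⟩
        have h2 : ∀ s' ∈ S ++ S', ∃ c, ∀ z, z.2 ≠ 0 → s' (buG2 z) = s' z + c := by
          intro s' hs'
          rcases List.mem_append.1 hs' with h3 | h3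
          · exact ⟨1, (h s' (List.mem_cons_of_mem _ h3)).2⟩
          · exact ⟨1, (h' s' h3).2⟩
        rw [AddMonoidHom.comp_apply, List.cons_append, buOm_cons, key,
          hs.congr (β := buOm (S ++ S'))]
        · exact ha S S' (by simpa using hS) hS' (fun s' hs' => h s' (List.mem_cons_of_mem _ hs')) h'
        · rintro l ⟨h3, _⟩
          rw [Pi.add_apply, pb_apply, buEta_norm buG2 (fun z => z.2 ≠ 0) s _ 1
            (h s List.mem_cons_self).2 h2 l (fun z hz => bu_S1_ne (h3 z hz).2.1), one_mul]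
        · intro l hl
          have := buEta_norm buG1 (fun z => z.1 ≠ 0) s _ 0 (h s List.mem_cons_self).1 h1 l hl
          rw [zero_mul] at this
          exact (f2_eq_of_add this).symm

end core

theorem bu_orient (W : Type) [AddCommGroup W] [Module ℝ W] :
    ∃ o : W → F2, ∀ x, x ≠ 0 → o (-x) = o x + 1 := by
  classical
  refine ⟨fun x => if WellOrderingRel x (-x) then 1 else 0, fun x hx => ?_⟩
  have hne : x ≠ -x := by
    intro h
    apply hx
    have h2 : (2 : ℝ) • x = 0 := by rw [two_smul]; nth_rewrite 2 [h]; simp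
    simpa using h2
  simp only [neg_neg]
  rcases trichotomous_of WellOrderingRel x (-x) with h | h | h
  · have : ¬ WellOrderingRel (-x) x := asymm h
    simp only [h, this, if_true, if_false]; rfl
  · exact absurd h hne
  · have : ¬ WellOrderingRel x (-x) := asymm h
    simp only [h, this, if_true, if_false]; rfl

noncomputable def buSg (o : F2) (r : ℝ) : F2 := if 0 < r then 1 else if r < 0 then 0 else o

theorem buSg_neg (o : F2) (r : ℝ) : buSg (o + 1) (-r) = buSg o r + 1 := by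
  unfold buSg
  rcases lt_trichotomy r 0 with h | h | h
  · simp [h, not_lt.2 h.le]
  · simp [h]
  · simp only [h, if_true, neg_pos, not_lt.2 h.le, if_false, neg_lt_zero]; rfl

theorem bu_coord {n m a L : ℕ} (hL : L < n) (ha : a < m)
    (φ : (Fin n → ℝ) × (Fin m → ℝ) → Fin a → ℝ) (ψ : (Fin n → ℝ) × (Fin m → ℝ) → Fin L → ℝ)
    (hφ : ContinuousOn φ (S1 (Fin n) ×ˢ S1 (Fin m)))
    (hψ : ContinuousOn ψ (S1 (Fin n) ×ˢ S1 (Fin m)))
    (φ1 : ∀ z, z.1 ≠ 0 → φ (buG1 z) = φ z) (φ2 : ∀ z, φ (buG2 z) = -φ z)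
    (ψ1 : ∀ z, z.1 ≠ 0 → ψ (buG1 z) = -ψ z) (ψ2 : ∀ z, ψ (buG2 z) = -ψ z) :
    ∃ z ∈ S1 (Fin n) ×ˢ S1 (Fin m), φ z = 0 ∧ ψ z = 0 := by
  by_contra hc
  push Not at hc
  have hK : IsCompact (S1 (Fin n) ×ˢ S1 (Fin m)) := S1_compact.prod S1_compact
  set Φ : (Fin n → ℝ) × (Fin m → ℝ) → (Fin a → ℝ) × (Fin L → ℝ) := fun z => (φ z, ψ z) with hΦ
  have hΦc : ContinuousOn Φ (S1 (Fin n) ×ˢ S1 (Fin m)) := hφ.prodMk hψ
  obtain ⟨μ, hμ, hμ'⟩ := hK.exists_forall_le' (f := fun z => ‖Φ z‖) hΦc.norm (a := 0)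
    (fun z hz => norm_pos_iff.2 fun h => hc z hz (congrArg Prod.fst h) (congrArg Prod.snd h))
  obtain ⟨δ, hδ, hδ'⟩ := Metric.uniformContinuousOn_iff_le.1
    (hK.uniformContinuousOn_of_continuous hΦc) (μ / 2) (by positivity)
  obtain ⟨e, hs, -, he⟩ := bu_core2 L hL a ha δ hδ
  obtain ⟨o1, ho1⟩ := bu_orient (Fin n → ℝ)
  obtain ⟨o2, ho2⟩ := bu_orient (Fin m → ℝ)
  have h1 := he (List.ofFn fun k z => buSg (o2 z.2) (φ z k))
    (List.ofFn fun k z => buSg (o1 z.1 + o2 z.2) (ψ z k)) (by simp) (by simp) ?_ ?_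
  · rw [hs] at h1
    · exact zero_ne_one h1
    rintro l ⟨h2, h3⟩
    match l, h2, h3 with
    | [], _, _ => exact buOm_nil _
    | z :: l, h2, h3 =>
      have hz : ∀ w ∈ z :: l, w ∈ S1 (Fin n) ×ˢ S1 (Fin m) := fun w hw =>
        ⟨(h2 w hw).1, (h2 w hw).2.1⟩
      have h4 := hμ' z (hz z List.mem_cons_self)
      have h5 : ∀ w ∈ z :: l, dist (Φ z) (Φ w) ≤ μ / 2 := fun w hw =>
        hδ' z (hz z List.mem_cons_self) w (hz w hw) (h3 z List.mem_cons_self w hw)
      have h6 : ∀ (r r' : ℝ) (o o' : F2), μ ≤ |r| → dist r r' ≤ μ / 2 →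
          buSg o' r' = buSg o r := by
        intro r r' o o' k1 k2
        rw [Real.dist_eq, abs_le] at k2
        unfold buSg
        rcases le_abs.1 k1 with k | k
        · rw [if_pos (by linarith), if_pos (by linarith)]
        · rw [if_neg (by linarith), if_pos (by linarith), if_neg (by linarith),
            if_pos (by linarith)]
      have h7 : (∃ k, μ ≤ |φ z k|) ∨ ∃ k, μ ≤ |ψ z k| := by
        by_contra h8
        push Not at h8
        have : ‖Φ z‖ < μ := by
          rw [Prod.norm_def]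
          exact max_lt ((pi_norm_lt_iff hμ).2 h8.1) ((pi_norm_lt_iff hμ).2 h8.2)
        linarith
      rcases h7 with ⟨k, hk⟩ | ⟨k, hk⟩
      · apply buOm_eq_zero _ (fun z => buSg (o2 z.2) (φ z k))
          (List.mem_append_left _ (List.mem_ofFn.2 ⟨k, rfl⟩)) (buSg 0 (φ z k))
        intro w hw
        exact h6 _ _ _ _ hk ((dist_le_pi_dist _ _ k).trans ((le_max_left _ _).trans (h5 w hw)))
      · apply buOm_eq_zero _ (fun z => buSg (o1 z.1 + o2 z.2) (ψ z k))
          (List.mem_append_right _ (List.mem_ofFn.2 ⟨k, rfl⟩)) (buSg 0 (ψ z k))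
        intro w hw
        exact h6 _ _ _ _ hk ((dist_le_pi_dist _ _ k).trans ((le_max_right _ _).trans (h5 w hw)))
  · intro s hs'
    obtain ⟨k, rfl⟩ := List.mem_ofFn.1 hs'
    refine ⟨fun z hz => ?_, fun z hz => ?_⟩
    · simp only [φ1 z hz, add_zero]; rfl
    · simp only [φ2 z, Pi.neg_apply, ← buSg_neg, ← ho2 _ hz]; rfl
  · intro s hs'
    obtain ⟨k, rfl⟩ := List.mem_ofFn.1 hs'
    refine ⟨fun z hz => ?_, fun z hz => ?_⟩
    · simp only [ψ1 z hz, Pi.neg_apply, ← buSg_neg]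
      rw [add_right_comm, ← ho1 _ hz]; rfl
    · simp only [ψ2 z, Pi.neg_apply, ← buSg_neg]
      rw [add_assoc, ← ho2 _ hz]; rfl

/-- two-parameter Borsuk–Ulam theorem -/
theorem bu2 {E V F G : Type} [NormedAddCommGroup E] [NormedSpace ℝ E] [FiniteDimensional ℝ E]
    [NormedAddCommGroup V] [NormedSpace ℝ V] [FiniteDimensional ℝ V]
    [NormedAddCommGroup F] [NormedSpace ℝ F] [FiniteDimensional ℝ F]
    [NormedAddCommGroup G] [NormedSpace ℝ G] [FiniteDimensional ℝ G]
    (hG : finrank ℝ G < finrank ℝ E) (hF : finrank ℝ F < finrank ℝ V)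
    (f : sphere (0 : E) 1 → V → F) (g : sphere (0 : E) 1 → V → G)
    (hf : Continuous fun z : sphere (0 : E) 1 × V => f z.1 z.2)
    (hg : Continuous fun z : sphere (0 : E) 1 × V => g z.1 z.2)
    (f1 : ∀ x v, f (-x) v = f x v) (f2 : ∀ x v, f x (-v) = -f x v)
    (g1 : ∀ x v, g (-x) v = -g x v) (g2 : ∀ x v, g x (-v) = -g x v) :
    ∃ x v, v ≠ 0 ∧ f x v = 0 ∧ g x v = 0 := by
  classical
  let TE := (Module.finBasis ℝ E).equivFun.toContinuousLinearEquiv.symm
  let TV := (Module.finBasis ℝ V).equivFun.toContinuousLinearEquiv.symm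
  let TF := (Module.finBasis ℝ F).equivFun.toContinuousLinearEquiv
  let TG := (Module.finBasis ℝ G).equivFun.toContinuousLinearEquiv
  have : Nontrivial E := Module.nontrivial_of_finrank_pos (R := ℝ) (by omega)
  obtain ⟨x0, hx0⟩ := NormedSpace.sphere_nonempty (E := E) (x := 0) (r := 1) |>.2 zero_le_one
  have hmem : ∀ y : E, y ≠ 0 → ‖y‖⁻¹ • y ∈ sphere (0 : E) 1 := fun y hy => by
    simp [norm_smul, hy]
  let N : E → sphere (0 : E) 1 := fun y => if h : y = 0 then ⟨x0, hx0⟩ else ⟨_, hmem y h⟩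
  have Nv : ∀ y : E, y ≠ 0 → (N y : E) = ‖y‖⁻¹ • y := fun y hy => by simp [N, hy]
  have Nn : ∀ y : E, y ≠ 0 → N (-y) = -N y := fun y hy => by
    apply Subtype.ext
    rw [coe_neg_sphere, Nv y hy, Nv (-y) (neg_ne_zero.2 hy), norm_neg, smul_neg]
  have Nc : ContinuousOn N {y | y ≠ 0} := by
    rw [Topology.IsInducing.subtypeVal.continuousOn_iff]
    refine ContinuousOn.congr (f := fun y => ‖y‖⁻¹ • y) ?_ fun y hy => Nv y hy
    exact (continuous_norm.continuousOn.inv₀ fun y hy => norm_ne_zero_iff.2 hy).smul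
      continuousOn_id
  have Pc : ContinuousOn (fun z : (Fin (finrank ℝ E) → ℝ) × (Fin (finrank ℝ V) → ℝ) =>
      (N (TE z.1), TV z.2)) (S1 _ ×ˢ S1 _) := by
    refine ContinuousOn.prodMk (Nc.comp (f := fun z : _ × _ => TE z.1) (by fun_prop) ?_)
      (by fun_prop)
    intro z hz
    exact TE.map_ne_zero_iff.2 (bu_S1_ne hz.1)
  obtain ⟨z, hz, h1, h2⟩ := bu_coord hG hF (fun z => TF (f (N (TE z.1)) (TV z.2)))
    (fun z => TG (g (N (TE z.1)) (TV z.2)))
    (TF.continuous.comp_continuousOn (hf.comp_continuousOn Pc))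
    (TG.continuous.comp_continuousOn (hg.comp_continuousOn Pc))
    (fun z hz => by simp only [buG1, map_neg]; rw [Nn (TE z.1) (TE.map_ne_zero_iff.2 hz), f1])
    (fun z => by simp only [buG2, map_neg, f2])
    (fun z hz => by simp only [buG1, map_neg]; rw [Nn (TE z.1) (TE.map_ne_zero_iff.2 hz), g1, map_neg])
    (fun z => by simp only [buG2, map_neg, g2])
  exact ⟨_, _, TV.map_ne_zero_iff.2 (bu_S1_ne hz.2), TF.map_eq_zero_iff.1 h1,
    TG.map_eq_zero_iff.1 h2⟩

end Crest.Agent.H0188
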