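import Crest.Agent.H0188.Defs

/-! The Choquet integral of a modular dimension function is linear. -/

set_option autoImplicit false
set_option linter.unusedSectionVars false

namespace Crest.Agent.H0188

open Finset

variable {Ω : Type} [TopologicalSpace Ω]

/-- modular dimension functions on continuous functions -/
structure Modular (δ : C(Ω, ℝ) → ℝ) : Prop where
  mono : ∀ f g : C(Ω, ℝ), 0 ≤ f → 0 ≤ g → (∀ x, 0 < f x → 0 < g x) → δ f ≤ δ g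
  modu : ∀ f g : C(Ω, ℝ), 0 ≤ f → 0 ≤ g → δ (f + g) + δ (f * g) = δ f + δ g
  zero : δ 0 = 0
  one : δ 1 = 1

def Coz (U : Set Ω) : Prop := ∃ f : C(Ω, ℝ), 0 ≤ f ∧ U = {x | 0 < f x}

open Classical in
noncomputable def nu (δ : C(Ω, ℝ) → ℝ) (U : Set Ω) : ℝ := if h : Coz U then δ h.choose else 0

noncomputable def II (δ : C(Ω, ℝ) → ℝ) (φ : Ω → ℕ) : ℝ := ∑' i, nu δ {x | i < φ x}

def St (φ : Ω → ℕ) (M : ℕ) : Prop := (∀ i, Coz {x | i < φ x}) ∧ ∀ x, φ x ≤ M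

noncomputable def TT (δ : C(Ω, ℝ) → ℝ) (f : C(Ω, ℝ)) : ℝ :=
  ⨅ n : ℕ, (∑' i : ℕ, δ ((((n + 1 : ℕ) : ℝ) • f - (i : ℝ) • 1)⁺)) / (n + 1)

theorem coz_union {f g : C(Ω, ℝ)} (hf : 0 ≤ f) (hg : 0 ≤ g) :
    {x | 0 < f x} ∪ {x | 0 < g x} = {x | 0 < (f + g) x} := by
  ext x
  have h1 : 0 ≤ f x := hf x
  have h2 : 0 ≤ g x := hg x
  simp only [Set.mem_union, Set.mem_ofPred_eq, ContinuousMap.add_apply]
  exact ⟨fun h => by rcases h with h | h <;> linarith, fun h => by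
    by_contra hc; push Not at hc; linarith [hc.1, hc.2]⟩

theorem coz_inter {f g : C(Ω, ℝ)} (hf : 0 ≤ f) (hg : 0 ≤ g) :
    {x | 0 < f x} ∩ {x | 0 < g x} = {x | 0 < (f * g) x} := by
  ext x
  have h1 : 0 ≤ f x := hf x
  have h2 : 0 ≤ g x := hg x
  simp only [Set.mem_inter_iff, Set.mem_ofPred_eq, ContinuousMap.mul_apply]
  exact ⟨fun h => mul_pos h.1 h.2, fun h => ⟨lt_of_le_of_ne h1 fun e => by simp [← e] at h,
    lt_of_le_of_ne h2 fun e => by simp [← e] at h⟩⟩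

theorem Coz.union {U V : Set Ω} (hU : Coz U) (hV : Coz V) : Coz (U ∪ V) := by
  obtain ⟨f, hf, rfl⟩ := hU
  obtain ⟨g, hg, rfl⟩ := hV
  exact ⟨f + g, add_nonneg hf hg, coz_union hf hg⟩

theorem Coz.inter {U V : Set Ω} (hU : Coz U) (hV : Coz V) : Coz (U ∩ V) := by
  obtain ⟨f, hf, rfl⟩ := hU
  obtain ⟨g, hg, rfl⟩ := hV
  exact ⟨f * g, fun x => mul_nonneg (hf x) (hg x), coz_inter hf hg⟩

theorem coz_univ : Coz (Set.univ : Set Ω) := ⟨1, fun _ => zero_le_one, by simp⟩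

theorem coz_empty : Coz (∅ : Set Ω) := ⟨0, le_rfl, by simp⟩

theorem St.add_ind {φ : Ω → ℕ} {M : ℕ} (h : St φ M) {U : Set Ω} (hU : Coz U) :
    St (φ + U.indicator 1) (M + 1) ∧ {x | 0 < (φ + U.indicator 1 : Ω → ℕ) x} = {x | 0 < φ x} ∪ U ∧
      ∀ i, {x | i + 1 < (φ + U.indicator 1 : Ω → ℕ) x} =
        {x | i + 1 < φ x} ∪ ({x | i < φ x} ∩ U) := by
  have e0 : {x | 0 < (φ + U.indicator 1 : Ω → ℕ) x} = {x | 0 < φ x} ∪ U := by
    ext x; by_cases hx : x ∈ U <;> simp [hx]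
  have e1 : ∀ i, {x | i + 1 < (φ + U.indicator 1 : Ω → ℕ) x} =
      {x | i + 1 < φ x} ∪ ({x | i < φ x} ∩ U) := by
    intro i; ext x; by_cases hx : x ∈ U <;> simp [hx]; omega
  refine ⟨⟨fun i => ?_, fun x => ?_⟩, e0, e1⟩
  · rcases i with _ | i
    · rw [e0]; exact (h.1 0).union hU
    · rw [e1]; exact (h.1 _).union ((h.1 _).inter hU)
  · have := h.2 x
    by_cases hx : x ∈ U <;> simp [hx]; omega; omega

theorem st_const (k : ℕ) : St (fun _ : Ω => k) k :=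
  ⟨fun i => by by_cases h : i < k <;> simp [h, coz_univ, coz_empty], fun _ => le_rfl⟩

namespace Modular

variable {δ : C(Ω, ℝ) → ℝ} (hδ : Modular δ)
include hδ

theorem nonneg {f : C(Ω, ℝ)} (hf : 0 ≤ f) : 0 ≤ δ f :=
  hδ.zero ▸ hδ.mono 0 f le_rfl hf fun x h => by simp at h

theorem nu_eq {f : C(Ω, ℝ)} (hf : 0 ≤ f) : nu δ {x | 0 < f x} = δ f := by
  have h : Coz {x | 0 < f x} := ⟨f, hf, rfl⟩
  rw [nu, dif_pos h]
  obtain ⟨h1, h2⟩ := h.choose_spec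
  exact le_antisymm (hδ.mono _ _ h1 hf fun x hx => (Set.ext_iff.1 h2 x).2 hx)
    (hδ.mono _ _ hf h1 fun x hx => (Set.ext_iff.1 h2 x).1 hx)

theorem nu_mono {U V : Set Ω} (hU : Coz U) (hV : Coz V) (h : U ⊆ V) : nu δ U ≤ nu δ V := by
  obtain ⟨f, hf, rfl⟩ := hU
  obtain ⟨g, hg, rfl⟩ := hV
  rw [hδ.nu_eq hf, hδ.nu_eq hg]
  exact hδ.mono _ _ hf hg h

theorem nu_modu {U V : Set Ω} (hU : Coz U) (hV : Coz V) :
    nu δ (U ∪ V) + nu δ (U ∩ V) = nu δ U + nu δ V := by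
  obtain ⟨f, hf, rfl⟩ := hU
  obtain ⟨g, hg, rfl⟩ := hV
  rw [coz_union hf hg, coz_inter hf hg, hδ.nu_eq hf, hδ.nu_eq hg, hδ.nu_eq (add_nonneg hf hg),
    hδ.nu_eq (f := f * g) fun x => mul_nonneg (hf x) (hg x)]
  exact hδ.modu f g hf hg

theorem nu_empty : nu δ ∅ = 0 := by simpa [hδ.zero] using hδ.nu_eq (f := 0) le_rfl

theorem nu_univ : nu δ Set.univ = 1 := by
  simpa [hδ.one] using hδ.nu_eq (f := 1) fun _ => zero_le_one

theorem II_eq {φ : Ω → ℕ} {M : ℕ} (h : ∀ x, φ x ≤ M) :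
    II δ φ = ∑ i ∈ range M, nu δ {x | i < φ x} := by
  refine tsum_eq_sum fun i hi => ?_
  rw [← hδ.nu_empty]
  congr 1
  ext x
  have := h x
  simp only [mem_range, not_lt] at hi
  simp only [Set.mem_ofPred_eq, Set.mem_empty_iff_false, iff_false, not_lt]
  omega

theorem II_mono {φ ψ : Ω → ℕ} {M N : ℕ} (hφ : St φ M) (hψ : St ψ N) (h : ∀ x, φ x ≤ ψ x) :
    II δ φ ≤ II δ ψ := by
  rw [hδ.II_eq hψ.2, hδ.II_eq fun x => (h x).trans (hψ.2 x)]
  exact sum_le_sum fun i _ => hδ.nu_mono (hφ.1 i) (hψ.1 i) fun x hx => lt_of_lt_of_le hx (h x)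

theorem II_add_ind {φ : Ω → ℕ} {M : ℕ} (h : St φ M) {U : Set Ω} (hU : Coz U) :
    II δ (φ + U.indicator 1) = II δ φ + nu δ U := by
  obtain ⟨h1, e0, e1⟩ := h.add_ind hU
  rw [hδ.II_eq h1.2, hδ.II_eq (M := M + 1) fun x => (h.2 x).trans (Nat.le_succ M), sum_range_succ',
    sum_range_succ', e0]
  have e2 : ∀ i, nu δ {x | i + 1 < (φ + U.indicator 1 : Ω → ℕ) x} = nu δ {x | i + 1 < φ x} +
      (nu δ ({x | i < φ x} ∩ U) - nu δ ({x | i + 1 < φ x} ∩ U)) := by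
    intro i
    have := hδ.nu_modu (h.1 (i + 1)) ((h.1 i).inter hU)
    rw [← Set.inter_assoc, Set.inter_eq_left (s := {x | i + 1 < φ x}) (t := {x | i < φ x}).2
      (fun x (hx : i + 1 < φ x) => (by omega : i < φ x))]
      at this
    rw [e1]
    linarith
  have e3 : {x | M < φ x} ∩ U = ∅ := by
    ext x; have := h.2 x; simp; omega
  simp only [e2, sum_add_distrib]
  rw [sum_range_sub' (fun i => nu δ ({x | i < φ x} ∩ U)), e3, hδ.nu_empty]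
  linarith [hδ.nu_modu (h.1 0) hU]

theorem II_add {φ ψ : Ω → ℕ} {M N : ℕ} (hφ : St φ M) (hψ : St ψ N) :
    St (φ + ψ) (M + N) ∧ II δ (φ + ψ) = II δ φ + II δ ψ := by
  induction N generalizing ψ with
  | zero =>
    obtain rfl : ψ = 0 := funext fun x => Nat.le_zero.1 (hψ.2 x)
    simp [hφ, hδ.II_eq (φ := 0) (M := 0) fun _ => le_rfl]
  | succ N ih =>
    have h1 : St (fun x => ψ x - 1) N := ⟨fun i => by
      simpa only [Nat.lt_sub_iff_add_lt] using hψ.1 (i + 1), fun x => by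
        have := hψ.2 x; simp only; omega⟩
    have e : ψ = (fun x => ψ x - 1) + {x | 0 < ψ x}.indicator 1 := by
      ext x; by_cases hx : 0 < ψ x <;> simp [Set.indicator, hx]; omega; omega
    obtain ⟨h2, h3⟩ := ih h1
    rw [e, ← add_assoc, hδ.II_add_ind h2 (hψ.1 0), hδ.II_add_ind h1 (hψ.1 0), h3]
    exact ⟨(h2.add_ind (hψ.1 0)).1, by ring⟩

theorem II_const (k : ℕ) : II δ (fun _ => k) = k := by
  rw [hδ.II_eq (M := k) fun _ => le_rfl, sum_congr rfl (g := fun _ => 1)]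
  · simp
  · intro i hi
    simp [mem_range.1 hi, hδ.nu_univ]

theorem II_nsmul {φ : Ω → ℕ} {M : ℕ} (hφ : St φ M) (k : ℕ) :
    St (k • φ) (k * M) ∧ II δ (k • φ) = k * II δ φ := by
  induction k with
  | zero => simpa using ⟨st_const 0, (hδ.II_const 0).trans Nat.cast_zero⟩
  | succ k ih =>
    rw [succ_nsmul, Nat.succ_mul]
    refine ⟨(hδ.II_add ih.1 hφ).1, ?_⟩
    rw [(hδ.II_add ih.1 hφ).2, ih.2]
    push_cast; ring

variable [CompactSpace Ω]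

omit hδ in
theorem lev (f : C(Ω, ℝ)) (n i : ℕ) :
    {x | i < ⌈(n : ℝ) * f x⌉₊} = {x | 0 < ((n : ℝ) • f - (i : ℝ) • (1 : C(Ω, ℝ)))⁺ x} := by
  ext x
  simp [Nat.lt_ceil, posPart_def]

omit hδ in
theorem st_ceil (f : C(Ω, ℝ)) (n : ℕ) : St (fun x => ⌈(n : ℝ) * f x⌉₊) ⌈(n : ℝ) * ‖f‖⌉₊ :=
  ⟨fun i => ⟨_, posPart_nonneg _, lev f n i⟩, fun x => Nat.ceil_mono (mul_le_mul_of_nonneg_left
    ((le_abs_self _).trans (f.norm_coe_le_norm x)) n.cast_nonneg)⟩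

theorem TT_eq (f : C(Ω, ℝ)) :
    TT δ f = ⨅ n : ℕ, II δ (fun x => ⌈((n + 1 : ℕ) : ℝ) * f x⌉₊) / (n + 1) := by
  simp only [TT, II, lev, hδ.nu_eq (posPart_nonneg _)]

theorem TT_nonneg (f : C(Ω, ℝ)) : 0 ≤ TT δ f :=
  le_ciInf fun _ => div_nonneg (tsum_nonneg fun _ => hδ.nonneg (posPart_nonneg _)) (by positivity)

theorem TT_le (f : C(Ω, ℝ)) (n : ℕ) :
    (n + 1) * TT δ f ≤ II δ (fun x => ⌈((n + 1 : ℕ) : ℝ) * f x⌉₊) := by
  rw [hδ.TT_eq, mul_comm, ← le_div_iff₀ (by positivity)]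
  refine ciInf_le ⟨0, ?_⟩ n
  rintro _ ⟨k, rfl⟩
  refine div_nonneg ?_ (by positivity)
  have := hδ.II_mono (st_const 0) (st_ceil f (k + 1)) fun _ => Nat.zero_le _
  rwa [hδ.II_const, Nat.cast_zero] at this

theorem le_TT (f : C(Ω, ℝ)) (hf : 0 ≤ f) (n : ℕ) :
    II δ (fun x => ⌈((n + 1 : ℕ) : ℝ) * f x⌉₊) ≤ (n + 1) * TT δ f + 1 := by
  rw [hδ.TT_eq, ← sub_le_iff_le_add, ← div_le_iff₀' (by positivity)]
  refine le_ciInf fun m => ?_
  have h1 := hδ.II_nsmul (st_ceil f (n + 1)) (m + 1)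
  have h2 := hδ.II_nsmul (st_ceil f (m + 1)) (n + 1)
  have h3 := hδ.II_add h2.1 (st_const (m + 1))
  have h4 := hδ.II_mono h1.1 h3.1 fun x => by
    have hx : 0 ≤ f x := hf x
    have a1 := Nat.ceil_lt_add_one (show 0 ≤ ((n + 1 : ℕ) : ℝ) * f x by positivity)
    have a2 := Nat.le_ceil (((m + 1 : ℕ) : ℝ) * f x)
    simp only [Pi.smul_apply, smul_eq_mul, Pi.add_apply]
    rw [← Nat.cast_le (α := ℝ)]
    push_cast at a1 a2 ⊢
    nlinarith
  rw [h1.2, h3.2, h2.2, hδ.II_const] at h4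
  rw [div_le_div_iff₀ (by positivity) (by positivity)]
  push_cast at h4 ⊢
  linarith

omit hδ [CompactSpace Ω] in
theorem le_of_forall_nat {a b : ℝ} (h : ∀ n : ℕ, (n + 1) * a ≤ (n + 1) * b + 2) : a ≤ b := by
  by_contra hc
  obtain ⟨n, hn⟩ := exists_nat_gt (2 / (a - b))
  rw [div_lt_iff₀ (by linarith)] at hn
  nlinarith [h n]

theorem TT_add {f g : C(Ω, ℝ)} (hf : 0 ≤ f) (hg : 0 ≤ g) : TT δ (f + g) = TT δ f + TT δ g := by
  refine le_antisymm (le_of_forall_nat fun n => ?_) (le_of_forall_nat fun n => ?_)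
  · have h1 := hδ.II_add (st_ceil f (n + 1)) (st_ceil g (n + 1))
    have h2 := hδ.II_mono (st_ceil (f + g) (n + 1)) h1.1 fun x => by
      simpa only [ContinuousMap.add_apply, mul_add, Pi.add_apply] using Nat.ceil_add_le _ _
    linarith [hδ.TT_le (f + g) n, hδ.le_TT f hf n, hδ.le_TT g hg n, h1.2]
  · have h1 := hδ.II_add (st_ceil f (n + 1)) (st_ceil g (n + 1))
    have h3 := hδ.II_add (st_ceil (f + g) (n + 1)) (st_const 1)
    have h2 := hδ.II_mono h1.1 h3.1 fun x => by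
      have hx : 0 ≤ f x := hf x
      have hx' : 0 ≤ g x := hg x
      have a1 := Nat.ceil_lt_add_one (show 0 ≤ ((n + 1 : ℕ) : ℝ) * f x by positivity)
      have a2 := Nat.ceil_lt_add_one (show 0 ≤ ((n + 1 : ℕ) : ℝ) * g x by positivity)
      have a3 := Nat.le_ceil (((n + 1 : ℕ) : ℝ) * (f x + g x))
      simp only [Pi.add_apply, ContinuousMap.add_apply]
      rw [← Nat.lt_succ_iff, ← Nat.cast_lt (α := ℝ)]
      push_cast at a1 a2 a3 ⊢
      linarith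
    have h4 := hδ.II_const 1
    push_cast at h4
    linarith [hδ.TT_le f n, hδ.TT_le g n, hδ.le_TT (f + g) (add_nonneg hf hg) n, h1.2, h3.2]

theorem TT_zero : TT δ 0 = 0 := by simpa using hδ.TT_add (f := 0) (g := 0) le_rfl le_rfl

theorem TT_one : TT δ 1 = 1 := by
  have : ∀ n : ℕ, II δ (fun x => ⌈((n + 1 : ℕ) : ℝ) * (1 : C(Ω, ℝ)) x⌉₊) = n + 1 := fun n => by
    simp only [ContinuousMap.one_apply, mul_one, Nat.ceil_natCast, hδ.II_const]
    push_cast; rfl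
  rw [hδ.TT_eq]
  simp only [this, div_self (Nat.cast_add_one_ne_zero (R := ℝ) _), ciInf_const]

theorem exists_linear : ∃ L : C(Ω, ℝ) →ₗ[ℝ] ℝ, ∀ f, L f = TT δ f⁺ - TT δ f⁻ := by
  have hadd : ∀ f g : C(Ω, ℝ), TT δ (f + g)⁺ - TT δ (f + g)⁻ =
      TT δ f⁺ - TT δ f⁻ + (TT δ g⁺ - TT δ g⁻) := fun f g => by
    have e : (f + g)⁺ + (f⁻ + g⁻) = (f + g)⁻ + (f⁺ + g⁺) := by
      have h1 := posPart_sub_negPart (f + g)
      have h2 := posPart_sub_negPart f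
      have h3 := posPart_sub_negPart g
      linear_combination h1 - h2 - h3
    have := congrArg (TT δ) e
    rw [hδ.TT_add (posPart_nonneg _) (add_nonneg (negPart_nonneg _) (negPart_nonneg _)),
      hδ.TT_add (negPart_nonneg _) (add_nonneg (posPart_nonneg _) (posPart_nonneg _)),
      hδ.TT_add (negPart_nonneg _) (negPart_nonneg _),
      hδ.TT_add (posPart_nonneg _) (posPart_nonneg _)] at this
    linarith
  let φ : C(Ω, ℝ) →+ ℝ := ⟨⟨fun f => TT δ f⁺ - TT δ f⁻, by simp⟩, hadd⟩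
  have hpos : ∀ f, 0 ≤ f → 0 ≤ φ f := fun f hf => by
    simp [φ, posPart_eq_self.2 hf, negPart_eq_zero.2 hf, hδ.TT_zero, hδ.TT_nonneg]
  have hone : φ 1 = 1 := by
    simp [φ, hδ.TT_zero, hδ.TT_one]
  have hle : ∀ f, φ f ≤ ‖f‖ := fun f => le_of_forall_nat fun n => by
    have h1 := hpos (⌈((n + 1 : ℕ) : ℝ) * ‖f‖⌉₊ • 1 - (n + 1) • f) <| ContinuousMap.le_def.2 fun x => by
      have a1 := Nat.le_ceil (((n + 1 : ℕ) : ℝ) * ‖f‖)
      have a2 := (le_abs_self _).trans (f.norm_coe_le_norm x)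
      simp only [ContinuousMap.zero_apply, ContinuousMap.sub_apply, ContinuousMap.mul_apply,
        ContinuousMap.natCast_apply, nsmul_eq_mul, mul_one]
      nlinarith [(Nat.cast_nonneg (n + 1) : (0 : ℝ) ≤ _)]
    rw [map_sub, map_nsmul, map_nsmul, hone, nsmul_eq_mul, nsmul_eq_mul] at h1
    have a1 := Nat.ceil_lt_add_one (show 0 ≤ ((n + 1 : ℕ) : ℝ) * ‖f‖ by positivity)
    push_cast at h1 a1
    linarith
  have hc : Continuous φ := AddMonoidHomClass.continuous_of_bound φ 1 fun f => by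
    rw [one_mul, Real.norm_eq_abs, abs_le]
    exact ⟨by have := hle (-f); rw [map_neg, norm_neg] at this; linarith, hle f⟩
  exact ⟨(φ.toRealLinearMap hc).toLinearMap, fun _ => rfl⟩

end Modular

end Crest.Agent.H0188
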