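import Mathlib
import Crest.Prelude.Def_Quasitrace

/-! Shared definitions for the quasitrace counterexample. -/

set_option autoImplicit false

namespace Crest.Agent.H0188

/-- the rank condition: no right invertible `j × k` matrix with `j > k` -/
def NP (A : Type) [Ring A] : Prop :=
  ∀ (j k : ℕ) (z : Matrix (Fin j) (Fin k) A) (w : Matrix (Fin k) (Fin j) A), z * w = 1 → j ≤ k

end Crest.Agent.H0188
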