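import Crest.Agent.H0188.GG1

/-! The quantum Margulis / Gabber-Galil expander. -/

set_option autoImplicit false

namespace Crest.Agent.H0188

open Finset Matrix
open scoped ComplexConjugate

variable {m : ℕ} [NeZero m]

/-- the standard additive character -/
noncomputable abbrev ggψ : AddChar (ZMod m) ℂ := ZMod.stdAddChar

lemma gg_orth (t : ZMod m) : ∑ x : ZMod m, ggψ (x * t) = if t = 0 then (m : ℂ) else 0 := by
  rw [AddChar.sum_mulShift t (ZMod.isPrimitive_stdAddChar m), ZMod.card]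
  split_ifs <;> simp

lemma gg_conj (t : ZMod m) : conj (ggψ t) = ggψ (-t) := (AddChar.map_neg_eq_conj _ _).symm

lemma gg_norm (t : ZMod m) : ‖ggψ t‖ = 1 := AddChar.norm_apply _ _

/-- unnormalised Fourier transform -/
noncomputable def ggF (f : ZMod m → ℂ) (x : ZMod m) : ℂ := ∑ l, f l * ggψ (-(x * l))

lemma gg_parseval (f h : ZMod m → ℂ) :
    ∑ x, ggF f x * conj (ggF h x) = m * ∑ l, f l * conj (h l) := by
  unfold ggF
  simp_rw [map_sum, Finset.sum_mul_sum, map_mul, gg_conj]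
  rw [Finset.sum_comm, Finset.mul_sum]
  refine Finset.sum_congr rfl fun l _ => ?_
  rw [Finset.sum_comm]
  have : ∀ k x : ZMod m, f l * ggψ (-(x * l)) * (conj (h k) * ggψ (- -(x * k))) =
      f l * conj (h k) * ggψ (x * (k - l)) := by
    intro k x
    rw [show x * (k - l) = -(x * l) + - -(x * k) by ring, AddChar.map_add_eq_mul]
    ring
  simp_rw [this, ← Finset.mul_sum, gg_orth, sub_eq_zero]
  simp [mul_comm]

/-- Weyl coefficients -/
noncomputable def ggW (a : Matrix (ZMod m) (ZMod m) ℂ) (d x : ZMod m) : ℂ :=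
  ggF (fun l => a (l + d) l) x

lemma gg_trace_diag (a : Matrix (ZMod m) (ZMod m) ℂ) (ha : a.IsHermitian) (θ : ZMod m → ℂ) :
    trace (a * ((diagonal θ)ᴴ * a * diagonal θ)) =
      ∑ d, ∑ l, a (l + d) l * conj (a (l + d) l) * (conj (θ (l + d)) * θ l) := by
  rw [Finset.sum_comm]
  simp only [trace, diag_apply, diagonal_conjTranspose]
  refine Finset.sum_congr rfl fun l _ => ?_
  rw [Matrix.mul_apply, ← Equiv.sum_comp (Equiv.addLeft l)]
  refine Finset.sum_congr rfl fun d _ => ?_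
  rw [mul_diagonal, diagonal_mul, ← ha.apply l]
  simp only [Equiv.coe_addLeft, Pi.star_apply, RCLike.star_def]
  ring

lemma gg_trace_sq (a : Matrix (ZMod m) (ZMod m) ℂ) (ha : a.IsHermitian) :
    m * (trace (a * a)).re = ∑ d, ∑ x, ‖ggW a d x‖ ^ 2 := by
  have h := gg_trace_diag a ha fun _ => 1
  simp only [diagonal_one, conjTranspose_one, Matrix.one_mul, Matrix.mul_one, map_one,
    mul_one] at h
  have h2 : (m : ℂ) * trace (a * a) = ((∑ d, ∑ x, ‖ggW a d x‖ ^ 2 : ℝ) : ℂ) := by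
    rw [h, Finset.mul_sum]
    push_cast
    refine Finset.sum_congr rfl fun d _ => ?_
    rw [← gg_parseval]
    refine Finset.sum_congr rfl fun x _ => ?_
    rw [Complex.mul_conj']
    rfl
  have := congrArg Complex.re h2
  rw [Complex.ofReal_re] at this
  rw [← this]
  simp

lemma gg_two (a : Matrix (ZMod m) (ZMod m) ℂ) (ha : a.IsHermitian) :
    m * ((trace (a * ((diagonal fun k => ggψ (k ^ 2))ᴴ * a * diagonal fun k => ggψ (k ^ 2)))).re +
      (trace (a * ((diagonal fun k => ggψ (k ^ 2 + k))ᴴ * a *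
        diagonal fun k => ggψ (k ^ 2 + k)))).re) ≤
      ∑ d, ggc d * ∑ x, ‖ggW a d x‖ * ‖ggW a d (x + 2 * d)‖ := by
  rw [gg_trace_diag a ha, gg_trace_diag a ha, ← Complex.add_re, ← Finset.sum_add_distrib,
    ← Complex.re_ofReal_mul, Finset.mul_sum, Complex.re_sum]
  refine Finset.sum_le_sum fun d _ => (Complex.re_le_norm _).trans ?_
  have e : ((m : ℝ) : ℂ) * (∑ l, a (l + d) l * conj (a (l + d) l) *
      (conj (ggψ ((l + d) ^ 2)) * ggψ (l ^ 2)) + ∑ l, a (l + d) l * conj (a (l + d) l) *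
      (conj (ggψ ((l + d) ^ 2 + (l + d))) * ggψ (l ^ 2 + l))) =
      (ggψ (-d ^ 2) * (1 + ggψ (-d))) * ∑ x, ggW a d (x + 2 * d) * conj (ggW a d x) := by
    have e1 : ∀ x, ggW a d (x + 2 * d) = ggF (fun l => a (l + d) l * ggψ (-(2 * d * l))) x := by
      intro x
      refine Finset.sum_congr rfl fun l _ => ?_
      rw [show -((x + 2 * d) * l) = -(2 * d * l) + -(x * l) by ring, AddChar.map_add_eq_mul]
      ring
    simp_rw [e1]
    unfold ggW
    rw [gg_parseval, ← Finset.sum_add_distrib, mul_left_comm, Complex.ofReal_natCast,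
      Finset.mul_sum _ _ (ggψ (-d ^ 2) * (1 + ggψ (-d)))]
    congr 1
    refine Finset.sum_congr rfl fun l _ => ?_
    have f1 : conj (ggψ ((l + d) ^ 2)) * ggψ (l ^ 2) = ggψ (-d ^ 2) * ggψ (-(2 * d * l)) := by
      rw [gg_conj, ← AddChar.map_add_eq_mul, ← AddChar.map_add_eq_mul]
      congr 1; ring
    have f2 : conj (ggψ ((l + d) ^ 2 + (l + d))) * ggψ (l ^ 2 + l) =
        ggψ (-d ^ 2) * ggψ (-(2 * d * l)) * ggψ (-d) := by
      rw [gg_conj, ← AddChar.map_add_eq_mul, ← AddChar.map_add_eq_mul, ← AddChar.map_add_eq_mul]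
      congr 1; ring
    rw [f1, f2]
    ring
  rw [e, norm_mul, norm_mul, gg_norm, one_mul]
  refine mul_le_mul_of_nonneg_left ((norm_sum_le _ _).trans (le_of_eq ?_)) (norm_nonneg _)
  refine Finset.sum_congr rfl fun x _ => ?_
  rw [norm_mul, Complex.norm_conj, mul_comm]

/-- the unitary Fourier matrix -/
noncomputable def ggU (m : ℕ) [NeZero m] : Matrix (ZMod m) (ZMod m) ℂ :=
  Matrix.of fun j k => ((Real.sqrt m)⁻¹ : ℝ) * ggψ (j * k)

lemma gg_sqrt : (((Real.sqrt m)⁻¹ : ℝ) : ℂ) * (((Real.sqrt m)⁻¹ : ℝ) : ℂ) * m = 1 := by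
  have hm : (0 : ℝ) < m := by exact_mod_cast NeZero.pos m
  have : (Real.sqrt m)⁻¹ * (Real.sqrt m)⁻¹ * m = 1 := by
    rw [← mul_inv, Real.mul_self_sqrt hm.le, inv_mul_cancel₀ hm.ne']
  exact_mod_cast this

lemma ggU_unitary : ggU m ∈ unitary (Matrix (ZMod m) (ZMod m) ℂ) := by
  refine Matrix.mem_unitaryGroup_iff'.2 ?_
  ext j k
  rw [Matrix.mul_apply]
  have : ∀ l, star (ggU m) j l * ggU m l k =
      (((Real.sqrt m)⁻¹ : ℝ) : ℂ) * (((Real.sqrt m)⁻¹ : ℝ) : ℂ) * ggψ (l * (k - j)) := by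
    intro l
    rw [star_apply, show l * (k - j) = -(l * j) + l * k by ring, AddChar.map_add_eq_mul, ← gg_conj]
    simp only [ggU, of_apply, RCLike.star_def, map_mul, Complex.conj_ofReal]
    ring
  simp_rw [this]
  rw [← Finset.mul_sum, gg_orth, Matrix.one_apply]
  by_cases h : j = k
  · rw [if_pos h, if_pos (by rw [h, sub_self]), gg_sqrt]
  · rw [if_neg h, if_neg (by rw [sub_eq_zero]; exact Ne.symm h), mul_zero]

lemma ggW_conj (a : Matrix (ZMod m) (ZMod m) ℂ) (d x : ZMod m) :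
    ‖ggW ((ggU m)ᴴ * a * ggU m) d x‖ = ‖ggW a (-x) d‖ := by
  have : ggW ((ggU m)ᴴ * a * ggU m) d x = ggψ (x * d) * ggW a (-x) d := by
    unfold ggW ggF
    simp only [Matrix.mul_apply, conjTranspose_apply, Finset.sum_mul]
    rw [Finset.sum_comm, Finset.mul_sum]
    refine Finset.sum_congr rfl fun k _ => ?_
    rw [Finset.sum_comm]
    have e : ∀ j l, star (ggU m j (l + d)) * a j k * ggU m k l * ggψ (-(x * l)) =
        (((Real.sqrt m)⁻¹ : ℝ) : ℂ) * (((Real.sqrt m)⁻¹ : ℝ) : ℂ) * a j k * ggψ (-(j * d)) *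
          ggψ (l * (k - x - j)) := by
      intro j l
      have : ggψ (-(j * (l + d))) * ggψ (k * l) * ggψ (-(x * l)) =
          ggψ (-(j * d)) * ggψ (l * (k - x - j)) := by
        rw [← AddChar.map_add_eq_mul, ← AddChar.map_add_eq_mul, ← AddChar.map_add_eq_mul]
        congr 1; ring
      simp only [ggU, of_apply, RCLike.star_def, map_mul, Complex.conj_ofReal, gg_conj]
      linear_combination (((Real.sqrt m)⁻¹ : ℝ) : ℂ) * (((Real.sqrt m)⁻¹ : ℝ) : ℂ) * a j k * this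
    simp_rw [e, ← Finset.mul_sum, gg_orth]
    rw [Finset.sum_eq_single (k + -x)]
    · rw [if_pos (by ring), show -((k + -x) * d) = x * d + -(d * k) by ring,
        AddChar.map_add_eq_mul]
      linear_combination a (k + -x) k * (ggψ (x * d) * ggψ (-(d * k))) * gg_sqrt (m := m)
    · intro j _ hj
      rw [if_neg, mul_zero]
      intro h
      apply hj
      linear_combination -h
    · simp
  rw [this, norm_mul, gg_norm, one_mul]

lemma gg_diag_unitary (f : ZMod m → ZMod m) :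
    (diagonal fun k => ggψ (f k)) ∈ unitary (Matrix (ZMod m) (ZMod m) ℂ) := by
  refine Matrix.mem_unitaryGroup_iff'.2 ?_
  rw [star_eq_conjTranspose, diagonal_conjTranspose, diagonal_mul_diagonal, ← diagonal_one]
  congr 1
  funext k
  simp only [Pi.star_apply, RCLike.star_def]
  rw [gg_conj, ← AddChar.map_add_eq_mul, neg_add_cancel, AddChar.map_zero_eq_one]

lemma gg_trace_conj (a U : Matrix (ZMod m) (ZMod m) ℂ) :
    trace (a * ((ggU m * U * (ggU m)ᴴ)ᴴ * a * (ggU m * U * (ggU m)ᴴ))) =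
      trace (((ggU m)ᴴ * a * ggU m) * (Uᴴ * ((ggU m)ᴴ * a * ggU m) * U)) := by
  simp only [conjTranspose_mul, conjTranspose_conjTranspose, ← Matrix.mul_assoc]
  rw [trace_mul_comm]
  simp only [← Matrix.mul_assoc]

theorem gg (m : ℕ) [NeZero m] : ∃ u : Fin 4 → Matrix (ZMod m) (ZMod m) ℂ,
    (∀ i, u i ∈ unitary (Matrix (ZMod m) (ZMod m) ℂ)) ∧
    ∀ a : Matrix (ZMod m) (ZMod m) ℂ, a.IsHermitian →
      ∑ i, (trace (a * ((u i)ᴴ * a * u i))).re ≤
        15 / 4 * (trace (a * a)).re + ‖trace a‖ ^ 2 / (4 * m) := by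
  have hU : ∀ U ∈ unitary (Matrix (ZMod m) (ZMod m) ℂ),
      ggU m * U * (ggU m)ᴴ ∈ unitary (Matrix (ZMod m) (ZMod m) ℂ) := fun U h =>
    mul_mem (mul_mem ggU_unitary h) (Unitary.star_mem ggU_unitary)
  refine ⟨![diagonal fun k => ggψ (k ^ 2), diagonal fun k => ggψ (k ^ 2 + k),
    ggU m * (diagonal fun k => ggψ (k ^ 2)) * (ggU m)ᴴ,
    ggU m * (diagonal fun k => ggψ (k ^ 2 + k)) * (ggU m)ᴴ], ?_, fun a ha => ?_⟩
  · intro i
    fin_cases i
    · exact gg_diag_unitary _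
    · exact gg_diag_unitary _
    · exact hU _ (gg_diag_unitary _)
    · exact hU _ (gg_diag_unitary _)
  have hm : (0 : ℝ) < m := by exact_mod_cast NeZero.pos m
  have h1 := gg_two a ha
  have h2 := gg_two _ (isHermitian_conjTranspose_mul_mul (ggU m) ha)
  have h3 := gg_comb fun d x => ‖ggW a d x‖
  have h4 := gg_trace_sq a ha
  have h5 : ggW a 0 0 = trace a := by simp [ggW, ggF, trace]
  have h6 : ∀ d : ZMod m, ∑ x, ‖ggW ((ggU m)ᴴ * a * ggU m) d x‖ *
      ‖ggW ((ggU m)ᴴ * a * ggU m) d (x + 2 * d)‖ = ∑ x, ‖ggW a x d‖ * ‖ggW a (x - 2 * d) d‖ := by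
    intro d
    rw [← Equiv.sum_comp (Equiv.neg (ZMod m))]
    refine Finset.sum_congr rfl fun x _ => ?_
    rw [ggW_conj, ggW_conj, Equiv.neg_apply, neg_neg, show -(-x + 2 * d) = x - 2 * d by ring]
  simp_rw [h6] at h2
  rw [← gg_trace_conj, ← gg_trace_conj] at h2
  simp only [h5] at h3
  rw [← h4] at h3
  rw [Fin.sum_univ_four]
  simp only [Matrix.cons_val_zero, Matrix.cons_val_one, Matrix.cons_val]
  refine le_of_mul_le_mul_left ?_ hm
  have : (m : ℝ) * (15 / 4 * (trace (a * a)).re + ‖trace a‖ ^ 2 / (4 * m)) =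
      15 / 4 * (m * (trace (a * a)).re) + ‖trace a‖ ^ 2 / 4 := by field_simp
  rw [this]
  linarith

end Crest.Agent.H0188
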