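import Crest.Agent.H0188.Defs

/-! The combinatorial Gabber-Galil inequality. -/

set_option autoImplicit false

namespace Crest.Agent.H0188

open Finset

variable {m : ℕ} [NeZero m]

/-- distance to the nearest multiple of `m` -/
def ggn (t : ZMod m) : ℤ := |t.valMinAbs|

/-- the weights of the Gabber-Galil argument -/
noncomputable def ggw (a b : ℤ) : ℝ := if a < b then 4 / 5 else if b < a then 5 / 4 else 1

/-- the modulus of `1 + ζ ^ (-t)` -/
noncomputable def ggc (t : ZMod m) : ℝ := ‖1 + (ZMod.stdAddChar (-t) : ℂ)‖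

lemma ggn_le (t : ZMod m) : 2 * ggn t ≤ m := by
  have := t.valMinAbs_mem_Ioc
  unfold ggn
  rcases abs_cases t.valMinAbs with h | h <;> linarith [this.1, this.2]

lemma le_ggn (s r : ℤ) (h1 : r ≤ |s|) (h2 : |s| + r ≤ m) : r ≤ ggn (s : ZMod m) := by
  by_contra h
  push Not at h
  unfold ggn at h
  have h3 : ((s : ZMod m).valMinAbs : ZMod m) = (s : ZMod m) := ZMod.coe_valMinAbs _
  rw [ZMod.intCast_eq_intCast_iff_dvd_sub] at h3
  have h4 := Int.eq_zero_of_abs_lt_dvd h3 (by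
    have := abs_sub s (s : ZMod m).valMinAbs
    linarith)
  have : s = (s : ZMod m).valMinAbs := by linarith
  rw [← this] at h
  linarith

lemma ggw_le (a b : ℤ) : ggw a b ≤ 5 / 4 := by
  unfold ggw; split_ifs <;> norm_num

lemma ggw_pos (a b : ℤ) : 0 < ggw a b := by
  unfold ggw; split_ifs <;> norm_num

lemma ggw_lt {a b : ℤ} (h : a + 1 ≤ b) : ggw a b = 4 / 5 := by
  unfold ggw; rw [if_pos (by omega)]

lemma ggw_le_one {a b : ℤ} (h : a ≤ b) : ggw a b ≤ 1 := by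
  unfold ggw; split_ifs <;> first | omega | norm_num

lemma ggw_am (a b : ℤ) (x y : ℝ) : 2 * (x * y) ≤ ggw a b * x ^ 2 + ggw b a * y ^ 2 := by
  unfold ggw
  have h1 := sq_nonneg (4 * x - 5 * y)
  have h2 := sq_nonneg (5 * x - 4 * y)
  have h3 := sq_nonneg (x - y)
  split_ifs <;> first | omega | nlinarith

lemma gg_pair (x y : ZMod m) (h : 2 * (ggn x + ggn y) < m) :
    ggw (ggn y) (ggn (y + 2 * x)) + ggw (ggn y) (ggn (y - 2 * x)) ≤
      if ggn y < ggn x then 8 / 5 else if ggn x = 0 then 2 else if ggn x = ggn y then 9 / 5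
        else 41 / 20 := by
  have e1 : y + 2 * x = ((y.valMinAbs + 2 * x.valMinAbs : ℤ) : ZMod m) := by simp
  have e2 : y - 2 * x = ((y.valMinAbs - 2 * x.valMinAbs : ℤ) : ZMod m) := by simp
  rw [e1, e2]
  have hx : ggn x = |x.valMinAbs| := rfl
  have hy : ggn y = |y.valMinAbs| := rfl
  rw [hx, hy] at h ⊢
  generalize x.valMinAbs = a at *
  generalize y.valMinAbs = b at *
  have L : ∀ s : ℤ, |b| + 1 ≤ |s| → |s| + (|b| + 1) ≤ m → ggw |b| (ggn (s : ZMod m)) = 4 / 5 :=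
    fun s h1 h2 => ggw_lt (le_ggn s _ h1 h2)
  have M : ∀ s : ℤ, |b| ≤ |s| → |s| + |b| ≤ m → ggw |b| (ggn (s : ZMod m)) ≤ 1 :=
    fun s h1 h2 => ggw_le_one (le_ggn s _ h1 h2)
  have G1 := ggw_le |b| (ggn ((b + 2 * a : ℤ) : ZMod m))
  have G2 := ggw_le |b| (ggn ((b - 2 * a : ℤ) : ZMod m))
  have L1 := L (b + 2 * a)
  have L2 := L (b - 2 * a)
  have M1 := M (b + 2 * a)
  have M2 := M (b - 2 * a)
  have c : |b| + 1 ≤ |b + 2 * a| ∨ |b| + 1 ≤ |b - 2 * a| ∨ |a| = 0 := by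
    rcases abs_cases a with h1 | h1 <;> rcases abs_cases b with h2 | h2 <;>
      rcases abs_cases (b + 2 * a) with h3 | h3 <;> rcases abs_cases (b - 2 * a) with h4 | h4 <;>
      omega
  have u : |b + 2 * a| ≤ |b| + 2 * |a| ∧ |b - 2 * a| ≤ |b| + 2 * |a| ∧
      2 * |a| - |b| ≤ |b + 2 * a| ∧ 2 * |a| - |b| ≤ |b - 2 * a| ∧
      |b| - 2 * |a| ≤ |b + 2 * a| ∧ |b| - 2 * |a| ≤ |b - 2 * a| := by
    rcases abs_cases a with h1 | h1 <;> rcases abs_cases b with h2 | h2 <;>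
      rcases abs_cases (b + 2 * a) with h3 | h3 <;> rcases abs_cases (b - 2 * a) with h4 | h4 <;>
      omega
  obtain ⟨u1, u2, u3, u4, u5, u6⟩ := u
  split_ifs with h1 h2 h3
  · rw [L1 (by omega) (by omega), L2 (by omega) (by omega)]; norm_num
  · linarith [M1 (by omega) (by omega), M2 (by omega) (by omega)]
  · rcases c with c | c | c
    · rw [L1 c (by omega)]; linarith [M2 (by omega) (by omega)]
    · rw [L2 c (by omega)]; linarith [M1 (by omega) (by omega)]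
    · exact absurd c h2
  · rcases c with c | c | c
    · rw [L1 c (by omega)]; linarith
    · rw [L2 c (by omega)]; linarith
    · exact absurd c h2

lemma ggc_nonneg (t : ZMod m) : 0 ≤ ggc t := norm_nonneg _

lemma ggc_sq (t : ZMod m) : ggc t ^ 2 = 2 + 2 * Real.cos (2 * Real.pi * ggn t / m) := by
  have e : -t = ((-t.valMinAbs : ℤ) : ZMod m) := by simp
  have e2 : (2 * Real.pi * Complex.I * ((-t.valMinAbs : ℤ) : ℂ) / (m : ℂ)) =
      ((-(2 * Real.pi * t.valMinAbs / m) : ℝ) : ℂ) * Complex.I := by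
    push_cast; ring
  have e3 : Real.cos (2 * Real.pi * ggn t / m) = Real.cos (-(2 * Real.pi * t.valMinAbs / m)) := by
    unfold ggn
    rcases abs_cases t.valMinAbs with h | h <;> rw [h.1]
    · rw [Real.cos_neg]
    · congr 1; push_cast; ring
  unfold ggc
  rw [e, ZMod.stdAddChar_coe, e2, e3, Complex.sq_norm, Complex.normSq_apply]
  simp only [Complex.add_re, Complex.one_re, Complex.add_im, Complex.one_im,
    Complex.exp_ofReal_mul_I_re, Complex.exp_ofReal_mul_I_im]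
  nlinarith [Real.sin_sq_add_cos_sq (-(2 * Real.pi * t.valMinAbs / m))]

lemma ggc_le (t : ZMod m) : ggc t ≤ 2 := by
  have := ggc_sq t
  have h := Real.cos_le_one (2 * Real.pi * ggn t / m)
  nlinarith [ggc_nonneg t]

lemma ggc_add (x y : ZMod m) (h : (m : ℤ) ≤ 2 * (ggn x + ggn y)) : ggc x + ggc y ≤ 3 := by
  have hm : (0 : ℝ) < m := by exact_mod_cast NeZero.pos m
  have hx : 2 * (ggn x : ℝ) ≤ m := by exact_mod_cast ggn_le x
  have hy : 2 * (ggn y : ℝ) ≤ m := by exact_mod_cast ggn_le y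
  have h' : (m : ℝ) ≤ 2 * ((ggn x : ℝ) + ggn y) := by exact_mod_cast h
  have hp := Real.pi_pos
  have h1 : Real.cos (2 * Real.pi * ggn x / m) ≤ Real.cos (Real.pi - 2 * Real.pi * ggn y / m) := by
    refine Real.cos_le_cos_of_nonneg_of_le_pi ?_ ?_ ?_
    · rw [sub_nonneg, div_le_iff₀ hm]; nlinarith
    · rw [div_le_iff₀ hm]; nlinarith
    · rw [sub_le_iff_le_add, ← add_div, le_div_iff₀ hm]; nlinarith
  rw [Real.cos_pi_sub] at h1
  have h2 := ggc_sq x
  have h3 := ggc_sq y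
  nlinarith [ggc_nonneg x, ggc_nonneg y, sq_nonneg (ggc x - ggc y)]

lemma gg_bracket (x y : ZMod m) :
    ggc x * (ggw (ggn y) (ggn (y + 2 * x)) + ggw (ggn y) (ggn (y - 2 * x))) +
      ggc y * (ggw (ggn x) (ggn (x + 2 * y)) + ggw (ggn x) (ggn (x - 2 * y))) ≤
      15 / 2 + if x = 0 ∧ y = 0 then 1 / 2 else 0 := by
  have p1 := ggw_pos (ggn y) (ggn (y + 2 * x))
  have p2 := ggw_pos (ggn y) (ggn (y - 2 * x))
  have p3 := ggw_pos (ggn x) (ggn (x + 2 * y))
  have p4 := ggw_pos (ggn x) (ggn (x - 2 * y))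
  have c1 := ggc_nonneg x
  have c2 := ggc_nonneg y
  have hi : (0 : ℝ) ≤ if x = 0 ∧ y = 0 then 1 / 2 else 0 := by split_ifs <;> norm_num
  rcases lt_or_ge (2 * (ggn x + ggn y)) m with h | h
  · have h1 := gg_pair x y h
    have h2 := gg_pair y x (by linarith)
    have d1 := ggc_le x
    have d2 := ggc_le y
    have key : (ggw (ggn y) (ggn (y + 2 * x)) + ggw (ggn y) (ggn (y - 2 * x))) +
        (ggw (ggn x) (ggn (x + 2 * y)) + ggw (ggn x) (ggn (x - 2 * y))) ≤
        15 / 4 + if x = 0 ∧ y = 0 then 1 / 4 else 0 := by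
      have nx : 0 ≤ ggn x := abs_nonneg _
      have ny : 0 ≤ ggn y := abs_nonneg _
      have zx : ggn x = 0 → x = 0 := fun h => by
        rwa [ggn, abs_eq_zero, ZMod.valMinAbs_eq_zero] at h
      have zy : ggn y = 0 → y = 0 := fun h => by
        rwa [ggn, abs_eq_zero, ZMod.valMinAbs_eq_zero] at h
      have hj : (0 : ℝ) ≤ if x = 0 ∧ y = 0 then 1 / 4 else 0 := by split_ifs <;> norm_num
      by_cases h0 : ggn x = 0 ∧ ggn y = 0
      · rw [if_pos ⟨zx h0.1, zy h0.2⟩]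
        rw [if_neg (by omega), if_pos (by omega)] at h1 h2
        linarith
      · split_ifs at h1 h2 <;> first | linarith | omega
    have e : (if x = 0 ∧ y = 0 then (1 : ℝ) / 2 else 0) =
        2 * if x = 0 ∧ y = 0 then 1 / 4 else 0 := by split_ifs <;> norm_num
    rw [e]
    nlinarith
  · have := ggc_add x y h
    have q1 := ggw_le (ggn y) (ggn (y + 2 * x))
    have q2 := ggw_le (ggn y) (ggn (y - 2 * x))
    have q3 := ggw_le (ggn x) (ggn (x + 2 * y))
    have q4 := ggw_le (ggn x) (ggn (x - 2 * y))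
    nlinarith

lemma gg_line (f : ZMod m → ℝ) (s : ZMod m) :
    2 * ∑ y, f y * f (y + s) ≤
      ∑ y, (ggw (ggn y) (ggn (y + s)) + ggw (ggn y) (ggn (y - s))) * f y ^ 2 := by
  simp_rw [add_mul]
  rw [Finset.sum_add_distrib, ← Equiv.sum_comp (Equiv.addRight s)
    (fun y => ggw (ggn y) (ggn (y - s)) * f y ^ 2), ← Finset.sum_add_distrib, Finset.mul_sum]
  refine Finset.sum_le_sum fun y _ => ?_
  simp only [Equiv.coe_addRight, add_sub_cancel_right]
  exact ggw_am _ _ _ _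

theorem gg_comb (g : ZMod m → ZMod m → ℝ) :
    ∑ x, ggc x * ∑ y, g x y * g x (y + 2 * x) + ∑ y, ggc y * ∑ x, g x y * g (x - 2 * y) y ≤
      15 / 4 * ∑ x, ∑ y, g x y ^ 2 + g 0 0 ^ 2 / 4 := by
  have h1 : 2 * ∑ x, ggc x * ∑ y, g x y * g x (y + 2 * x) ≤ ∑ x, ∑ y,
      ggc x * (ggw (ggn y) (ggn (y + 2 * x)) + ggw (ggn y) (ggn (y - 2 * x))) * g x y ^ 2 := by
    rw [Finset.mul_sum]
    refine Finset.sum_le_sum fun x _ => ?_
    simp_rw [mul_assoc (ggc x)]
    rw [← Finset.mul_sum, mul_left_comm]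
    exact mul_le_mul_of_nonneg_left (gg_line (g x) (2 * x)) (ggc_nonneg x)
  have h2 : 2 * ∑ y, ggc y * ∑ x, g x y * g (x - 2 * y) y ≤ ∑ x, ∑ y,
      ggc y * (ggw (ggn x) (ggn (x + 2 * y)) + ggw (ggn x) (ggn (x - 2 * y))) * g x y ^ 2 := by
    rw [Finset.mul_sum, Finset.sum_comm]
    refine Finset.sum_le_sum fun y _ => ?_
    simp_rw [mul_assoc (ggc y)]
    rw [← Finset.mul_sum, mul_left_comm]
    refine mul_le_mul_of_nonneg_left ?_ (ggc_nonneg y)
    have := gg_line (fun x => g x y) (-(2 * y))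
    simp only [← sub_eq_add_neg, sub_neg_eq_add] at this
    simpa only [add_comm] using this
  have h3 : ∑ x, ∑ y, ggc x * (ggw (ggn y) (ggn (y + 2 * x)) + ggw (ggn y) (ggn (y - 2 * x))) *
      g x y ^ 2 + ∑ x, ∑ y,
      ggc y * (ggw (ggn x) (ggn (x + 2 * y)) + ggw (ggn x) (ggn (x - 2 * y))) * g x y ^ 2 ≤
      ∑ x, ∑ y, (15 / 2 + if x = 0 ∧ y = 0 then 1 / 2 else 0) * g x y ^ 2 := by
    rw [← Finset.sum_add_distrib]
    refine Finset.sum_le_sum fun x _ => ?_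
    rw [← Finset.sum_add_distrib]
    refine Finset.sum_le_sum fun y _ => ?_
    rw [← add_mul]
    exact mul_le_mul_of_nonneg_right (gg_bracket x y) (sq_nonneg _)
  have h4 : ∑ x, ∑ y, (15 / 2 + if x = 0 ∧ y = 0 then 1 / 2 else 0) * g x y ^ 2 =
      15 / 2 * ∑ x, ∑ y, g x y ^ 2 + g 0 0 ^ 2 / 2 := by
    simp_rw [add_mul, Finset.sum_add_distrib, Finset.mul_sum]
    congr 1
    rw [Finset.sum_eq_single 0, Finset.sum_eq_single 0]
    · simp; ring
    · intro y _ hy; simp [hy]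
    · simp
    · intro x _ hx; simp [hx]
    · simp
  linarith

end Crest.Agent.H0188
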