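import Crest.Agent.H0188.GG

/-! The minimax step: expansion gives a uniformly positive commutator sum on small subspaces. -/

set_option autoImplicit false

namespace Crest.Agent.H0188

open Finset Matrix
open scoped ComplexConjugate MatrixOrder ComplexOrder

section general
variable {n : Type} [Fintype n] [DecidableEq n]

lemma pv_sqrt {ρ : Matrix n n ℂ} (h : ρ.PosSemidef) : ∃ a : Matrix n n ℂ, a.PosSemidef ∧ a * a = ρ :=
  ⟨CFC.sqrt ρ, (CFC.sqrt_nonneg ρ).posSemidef, CFC.sqrt_mul_sqrt_self ρ h.nonneg⟩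

lemma pv_tr_nonneg {p a : Matrix n n ℂ} (hp : p.PosSemidef) (ha : a.PosSemidef) :
    0 ≤ (trace (p * a)).re := by
  obtain ⟨r, hr, rfl⟩ := pv_sqrt ha
  have h := (hp.mul_mul_conjTranspose_same r).trace_nonneg
  rw [hr.1.eq, trace_mul_cycle, trace_mul_comm] at h
  exact (Complex.nonneg_iff.1 h).1

/-- Powers-Stormer -/
lemma pv_ps {a b : Matrix n n ℂ} (ha : a.PosSemidef) (hb : b.PosSemidef) :
    ∃ s : Matrix n n ℂ, s.IsHermitian ∧ s * s = 1 ∧
      (trace ((b - a) * (b - a))).re ≤ (trace ((b * b - a * a) * s)).re := by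
  have hd : IsSelfAdjoint (b - a) := hb.1.sub ha.1
  have hc : ∀ f : ℝ → ℝ, ContinuousOn f (spectrum ℝ (b - a)) := fun f =>
    finite_real_spectrum.continuousOn f
  set σ : ℝ → ℝ := fun t => if 0 ≤ t then 1 else -1 with hσ
  set s := cfc σ (b - a) with hs
  set p := cfc (fun t : ℝ => max t 0) (b - a) with hp
  set q := cfc (fun t : ℝ => max (-t) 0) (b - a) with hq
  have hp0 : p.PosSemidef := (cfc_nonneg fun t _ => le_max_right _ _).posSemidef
  have hq0 : q.PosSemidef := (cfc_nonneg fun t _ => le_max_right _ _).posSemidef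
  have hid : cfc (fun t : ℝ => t) (b - a) = b - a := cfc_id' ℝ _
  have e1 : p - q = b - a := by
    rw [hp, hq, ← cfc_sub _ _ _ (hc _) (hc _)]
    conv_rhs => rw [← hid]
    congr 1
    funext t
    rcases le_total 0 t with h | h
    · rw [max_eq_left h, max_eq_right (by linarith)]; ring
    · rw [max_eq_right h, max_eq_left (by linarith)]; ring
  have hf : (fun t => σ t * t) = fun t => max t 0 + max (-t) 0 := by
    funext t
    simp only [hσ]
    split_ifs with h
    · rw [max_eq_left h, max_eq_right (by linarith)]; ring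
    · rw [max_eq_right (by linarith), max_eq_left (by linarith)]; ring
  have e2 : s * (b - a) = p + q := by
    conv_lhs => rw [← hid]
    rw [hs, hp, hq, ← cfc_mul _ _ _ (hc _) (hc _), ← cfc_add _ _ _ (hc _) (hc _), hf]
  have e3 : (b - a) * s = p + q := by
    conv_lhs => rw [← hid]
    rw [hs, hp, hq, ← cfc_mul _ _ _ (hc _) (hc _), ← cfc_add _ _ _ (hc _) (hc _), ← hf]
    simp only [mul_comm]
  refine ⟨s, cfc_predicate σ (b - a), ?_, ?_⟩
  · rw [hs, ← cfc_mul _ _ _ (hc _) (hc _), ← cfc_const_one ℝ (b - a)]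
    congr 1
    funext t
    simp only [hσ]
    split_ifs <;> norm_num
  · have h1 := pv_tr_nonneg hp0 ha
    have h2 := pv_tr_nonneg hq0 hb
    have f1 : trace ((b * b - a * a) * s) + trace ((b * b - a * a) * s) =
        trace ((p + q) * (a + b)) + trace ((p + q) * (a + b)) := by
      have : (b * b - a * a) * s + (b * b - a * a) * s =
          (b - a) * (a + b) * s + (a + b) * ((b - a) * s) := by noncomm_ring
      rw [← trace_add, this, trace_add, trace_mul_cycle, e2, e3, trace_mul_comm (a + b)]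
    have f2 : (p + q) * (a + b) = (b - a) * (b - a) + (p * a + p * a + (q * b + q * b)) := by
      nth_rewrite 1 [← e1]
      noncomm_ring
    rw [f2] at f1
    have := congrArg Complex.re f1
    simp only [trace_add, Complex.add_re] at this
    linarith

/-- the bound for a fixed density matrix -/
lemma pv_fixed (U : Fin 4 → Matrix n n ℂ) (hU : ∀ i, U i ∈ unitary (Matrix n n ℂ)) (M : ℝ)
    (hM : 0 < M)
    (hg : ∀ a : Matrix n n ℂ, a.IsHermitian → ∑ i, (trace (a * ((U i)ᴴ * a * U i))).re ≤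
        15 / 4 * (trace (a * a)).re + ‖trace a‖ ^ 2 / (4 * M))
    (P : Matrix n n ℂ) (hP : P.IsHermitian) (hPP : P * P = P) (d : ℝ) (hd : 0 < d)
    (htr : trace P = d) (hdM : 10 * d ≤ M)
    (ρ : Matrix n n ℂ) (hρ : ρ.PosSemidef) (h1 : trace ρ = 1) (hPρ : P * ρ = ρ) :
    ∃ s : Fin 4 → Matrix n n ℂ, (∀ i, (s i).IsHermitian ∧ s i * s i = 1) ∧
      9 / 20 ≤ (trace (ρ * ∑ i, (U i * s i * star (U i) - s i))).re := by
  obtain ⟨a, ha, rfl⟩ := pv_sqrt hρ
  have hPa : P * a = a := by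
    have : ((1 - P) * a) * ((1 - P) * a)ᴴ = 0 := by
      rw [conjTranspose_mul, ha.1.eq, ← Matrix.mul_assoc, Matrix.mul_assoc _ a a, Matrix.sub_mul,
        hPρ, Matrix.one_mul, sub_self, Matrix.zero_mul]
    rw [self_mul_conjTranspose_eq_zero, Matrix.sub_mul, Matrix.one_mul, sub_eq_zero] at this
    exact this.symm
  have hta : ‖trace a‖ ^ 2 ≤ d := by
    obtain ⟨h0, him⟩ := Complex.nonneg_iff.1 ha.trace_nonneg
    have e : trace a = ((trace a).re : ℂ) := Complex.ext (by simp) (by simp [← him])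
    generalize (trace a).re = τ at *
    have hh : (a - ((τ / d : ℝ) : ℂ) • P).IsHermitian := by
      refine ha.1.sub ?_
      unfold Matrix.IsHermitian
      rw [conjTranspose_smul, hP.eq]
      simp
    have h2 := (posSemidef_conjTranspose_mul_self (a - ((τ / d : ℝ) : ℂ) • P)).trace_nonneg
    rw [hh.eq] at h2
    simp only [Matrix.sub_mul, Matrix.mul_sub, Matrix.smul_mul, Matrix.mul_smul, trace_sub,
      trace_smul, h1, hPP, hPa, trace_mul_comm a P, e, htr, smul_eq_mul] at h2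
    have h3 : (0 : ℝ) ≤ 1 - τ / d * τ - τ / d * (τ - τ / d * d) := by
      have := (Complex.nonneg_iff.1 h2).1
      simp only [← Complex.ofReal_mul, ← Complex.ofReal_sub, ← Complex.ofReal_one,
        Complex.ofReal_re] at this
      linarith
    rw [div_mul_cancel₀ _ hd.ne', sub_self, mul_zero, sub_zero, sub_nonneg, div_mul_eq_mul_div,
      div_le_one hd] at h3
    rw [e, Complex.norm_real, Real.norm_eq_abs, sq_abs, sq]
    exact h3
  have hb : ∀ i, ((U i)ᴴ * a * U i).PosSemidef := fun i => ha.conjTranspose_mul_mul_same _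
  choose s hs1 hs2 hs3 using fun i => pv_ps ha (hb i)
  refine ⟨s, fun i => ⟨hs1 i, hs2 i⟩, ?_⟩
  have hUU : ∀ i, U i * (U i)ᴴ = 1 := fun i => (Unitary.mem_iff.1 (hU i)).2
  have hbb : ∀ i, (U i)ᴴ * a * U i * ((U i)ᴴ * a * U i) = (U i)ᴴ * (a * a) * U i := fun i => by
    calc _ = (U i)ᴴ * a * (U i * (U i)ᴴ) * a * U i := by simp only [Matrix.mul_assoc]
      _ = _ := by rw [hUU]; simp only [Matrix.mul_assoc, Matrix.one_mul]
  have key : ∀ i, 2 - 2 * (trace (a * ((U i)ᴴ * a * U i))).re ≤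
      (trace (a * a * (U i * s i * star (U i) - s i))).re := by
    intro i
    have h := hs3 i
    have e1 : trace (((U i)ᴴ * a * U i - a) * ((U i)ᴴ * a * U i - a)) =
        2 - 2 * trace (a * ((U i)ᴴ * a * U i)) := by
      rw [Matrix.sub_mul, Matrix.mul_sub, Matrix.mul_sub, trace_sub, trace_sub, trace_sub, hbb,
        trace_mul_cycle, hUU, Matrix.one_mul, h1, trace_mul_comm _ a]
      ring
    have e2 : trace (((U i)ᴴ * a * U i * ((U i)ᴴ * a * U i) - a * a) * s i) =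
        trace (a * a * (U i * s i * star (U i) - s i)) := by
      rw [hbb, Matrix.sub_mul, Matrix.mul_sub, trace_sub, trace_sub, star_eq_conjTranspose,
        ← Matrix.mul_assoc (a * a), trace_mul_comm _ (U i)ᴴ]
      simp only [Matrix.mul_assoc]
    rw [e1, e2] at h
    simpa using h
  have h2 := Finset.sum_le_sum fun i (_ : i ∈ (univ : Finset (Fin 4))) => key i
  have h3 := hg a ha.1
  rw [Matrix.mul_sum, trace_sum, Complex.re_sum]
  rw [Finset.sum_sub_distrib, ← Finset.mul_sum] at h2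
  rw [h1] at h3
  have h4 : ‖trace a‖ ^ 2 / (4 * M) ≤ 1 / 40 := by
    rw [div_le_iff₀ (by positivity)]; linarith
  simp at h2 h3 ⊢
  linarith

lemma pv_compact (P : Matrix n n ℂ) (hP : P.IsHermitian) :
    IsCompact {ρ : Matrix n n ℂ | ρ.PosSemidef ∧ trace ρ = 1 ∧ P * ρ = ρ} := by
  have hC : IsCompact ((Set.univ.pi fun _ : n => Set.univ.pi fun _ : n => Metric.closedBall (0 : ℂ) 1) ∩
      {a : Matrix n n ℂ | trace (a * aᴴ) = 1 ∧ P * (a * aᴴ) = a * aᴴ}) := by
    refine IsCompact.inter_right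
      (isCompact_univ_pi fun _ => isCompact_univ_pi fun _ => isCompact_closedBall _ _) ?_
    refine IsClosed.inter (isClosed_eq ?_ continuous_const) (isClosed_eq ?_ ?_)
    · fun_prop
    · fun_prop
    · fun_prop
  have := hC.image (f := fun a : Matrix n n ℂ => a * aᴴ) (by fun_prop)
  convert this using 1
  ext ρ
  constructor
  · rintro ⟨h1, h2, h3⟩
    obtain ⟨a, ha, rfl⟩ := pv_sqrt h1
    refine ⟨a, ⟨fun i _ j _ => ?_, by rwa [ha.1.eq], by rwa [ha.1.eq]⟩, by simp only [ha.1.eq]⟩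
    have e : ∑ i, ∑ j, ‖a i j‖ ^ 2 = 1 := by
      nth_rewrite 2 [← ha.1.eq] at h2
      have := congrArg Complex.re h2
      simpa [trace, Matrix.mul_apply, Complex.mul_conj, Complex.normSq_eq_norm_sq,
        ← Complex.ofReal_pow] using this
    have e1 : ‖a i j‖ ^ 2 ≤ ∑ j, ‖a i j‖ ^ 2 :=
      Finset.single_le_sum (f := fun j => ‖a i j‖ ^ 2) (fun _ _ => by positivity) (mem_univ j)
    have e2 : ∑ j, ‖a i j‖ ^ 2 ≤ ∑ i, ∑ j, ‖a i j‖ ^ 2 :=
      Finset.single_le_sum (f := fun i => ∑ j, ‖a i j‖ ^ 2) (fun _ _ => by positivity) (mem_univ i)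
    rw [mem_closedBall_zero_iff]
    nlinarith [norm_nonneg (a i j)]
  · rintro ⟨a, ⟨-, h2, h3⟩, rfl⟩
    exact ⟨posSemidef_self_mul_conjTranspose a, h2, h3⟩

end general

section Y
variable {H : Type} [NormedAddCommGroup H] [InnerProductSpace ℂ H] [CompleteSpace H]

lemma pv_convY : Convex ℝ {s : Fin 4 → (H →L[ℂ] H) | ∀ i, IsSelfAdjoint (s i) ∧ ‖s i‖ ≤ 1} := by
  intro x hx y hy a b ha hb hab i
  have h : ∀ (c : ℝ) (z : H →L[ℂ] H), IsSelfAdjoint z → IsSelfAdjoint (c • z) := by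
    intro c z hz
    rw [← Complex.coe_smul]
    exact IsSelfAdjoint.smul (Complex.conj_ofReal c) hz
  refine ⟨(h a _ (hx i).1).add (h b _ (hy i).1), ?_⟩
  have := convex_closedBall (0 : H →L[ℂ] H) 1
    (mem_closedBall_zero_iff.2 (hx i).2) (mem_closedBall_zero_iff.2 (hy i).2) ha hb hab
  exact mem_closedBall_zero_iff.1 this

lemma pv_compY [FiniteDimensional ℂ H] :
    IsCompact {s : Fin 4 → (H →L[ℂ] H) | ∀ i, IsSelfAdjoint (s i) ∧ ‖s i‖ ≤ 1} := by
  have := FiniteDimensional.proper ℂ (H →L[ℂ] H)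
  refine Metric.isCompact_of_isClosed_isBounded ?_ ?_
  · rw [Set.setOf_forall]
    have h1 : IsClosed {z : H →L[ℂ] H | star z = z} := isClosed_eq continuous_star continuous_id
    have h2 : IsClosed {z : H →L[ℂ] H | ‖z‖ ≤ 1} := isClosed_le continuous_norm continuous_const
    exact isClosed_iInter fun i => IsClosed.preimage (f := fun s : Fin 4 → (H →L[ℂ] H) => s i)
      (continuous_apply i) (h1.inter h2)
  · refine (Metric.isBounded_closedBall (x := 0) (r := 1)).subset fun s hs => ?_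
    rw [mem_closedBall_zero_iff, pi_norm_le_iff_of_nonneg zero_le_one]
    exact fun i => (hs i).2

lemma pv_zeroY (i : Fin 4) : IsSelfAdjoint ((0 : Fin 4 → (H →L[ℂ] H)) i) ∧
    ‖(0 : Fin 4 → (H →L[ℂ] H)) i‖ ≤ 1 := ⟨IsSelfAdjoint.zero (H →L[ℂ] H), by simp⟩

end Y

lemma pv_saddle {E G : Type} [AddCommGroup E] [Module ℝ E] [TopologicalSpace E]
    [IsTopologicalAddGroup E] [ContinuousSMul ℝ E] [T2Space E] [FiniteDimensional ℝ E]
    [AddCommGroup G] [Module ℝ G] [TopologicalSpace G]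
    [IsTopologicalAddGroup G] [ContinuousSMul ℝ G] [T2Space G] [FiniteDimensional ℝ G]
    (B : E →ₗ[ℝ] G →ₗ[ℝ] ℝ) {X : Set E} {Y : Set G} (nX : X.Nonempty) (cX : Convex ℝ X)
    (kX : IsCompact X) (nY : Y.Nonempty) (cY : Convex ℝ Y) (kY : IsCompact Y) :
    ∃ a ∈ X, ∃ b ∈ Y, ∀ x ∈ X, ∀ y ∈ Y, B a y ≤ B x b :=
  Sion.exists_isSaddlePointOn (f := fun x y => B x y) nX cX kX
    (fun s _ => (B.flip s).continuous_of_finiteDimensional.lowerSemicontinuous.lowerSemicontinuousOn _)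
    (fun s _ => ((B.flip s).convexOn cX).quasiconvexOn) cY nY kY
    (fun ρ _ => (B ρ).continuous_of_finiteDimensional.upperSemicontinuous.upperSemicontinuousOn _)
    (fun ρ _ => ((B ρ).concaveOn cY).quasiconcaveOn)

theorem povm (m : ℕ) [NeZero m] :
    ∃ u : Fin 4 → (EuclideanSpace ℂ (ZMod m) →L[ℂ] EuclideanSpace ℂ (ZMod m)),
      (∀ i, u i ∈ unitary (EuclideanSpace ℂ (ZMod m) →L[ℂ] EuclideanSpace ℂ (ZMod m))) ∧
      ∀ K : Submodule ℂ (EuclideanSpace ℂ (ZMod m)), 10 * Module.finrank ℂ K ≤ m →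
        ∃ s : Fin 4 → (EuclideanSpace ℂ (ZMod m) →L[ℂ] EuclideanSpace ℂ (ZMod m)),
          (∀ i, IsSelfAdjoint (s i) ∧ ‖s i‖ ≤ 1) ∧ ∀ v ∈ K, v ≠ 0 →
            7 / 18 * ‖v‖ ^ 2 < (inner ℂ v ((∑ i, (u i * s i * star (u i) - s i)) v)).re := by
  obtain ⟨U, hU, hg⟩ := gg m
  set T := toEuclideanCLM (n := ZMod m) (𝕜 := ℂ) with hT
  refine ⟨fun i => T (U i), fun i => ?_, fun K hK => ?_⟩
  · rw [Unitary.mem_iff, ← map_star, ← map_mul, ← map_mul, (Unitary.mem_iff.1 (hU i)).1,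
      (Unitary.mem_iff.1 (hU i)).2, map_one]
    exact ⟨rfl, rfl⟩
  by_cases hK0 : K = ⊥
  · refine ⟨0, pv_zeroY, fun v hv h0 => ?_⟩
    rw [hK0] at hv
    exact absurd ((Submodule.mem_bot ℂ).1 hv) h0
  set P := T.symm K.starProjection with hP
  have hP1 : P.IsHermitian := by
    unfold Matrix.IsHermitian
    rw [← star_eq_conjTranspose, hP, ← map_star, (isSelfAdjoint_starProjection K).star_eq]
  have hP2 : P * P = P := by
    rw [hP, ← map_mul, K.isIdempotentElem_starProjection.eq]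
  have hP3 : trace P = ((Module.finrank ℂ K : ℝ) : ℂ) := by
    have h1 : LinearMap.IsProj K (K.starProjection : _ →ₗ[ℂ] _) :=
      ⟨fun x => K.starProjection_apply_mem x, fun x hx => Submodule.starProjection_eq_self_iff.2 hx⟩
    have h2 := h1.trace
    rw [LinearMap.trace_eq_matrix_trace ℂ (EuclideanSpace.basisFun (ZMod m) ℂ).toBasis] at h2
    rw [Complex.ofReal_natCast, ← h2]
    rfl
  have hP4 : ∀ v ∈ K, P *ᵥ v.ofLp = v.ofLp := fun v hv => by
    rw [← ofLp_toEuclideanCLM, ← hT, hP, StarAlgEquiv.apply_symm_apply,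
      Submodule.starProjection_eq_self_iff.2 hv]
  have hd : (0 : ℝ) < Module.finrank ℂ K := by
    exact_mod_cast Nat.pos_of_ne_zero fun h => hK0 (Submodule.finrank_eq_zero.1 h)
  have hvec : ∀ v ∈ K, v ≠ 0 → ∃ ρ ∈ {ρ : Matrix (ZMod m) (ZMod m) ℂ |
      ρ.PosSemidef ∧ trace ρ = 1 ∧ P * ρ = ρ}, ∀ A, (trace (ρ * T.symm A)).re * ‖v‖ ^ 2 =
        (inner ℂ v (A v)).re := by
    intro v hv h0
    have hn : ‖v‖ ^ 2 ≠ 0 := by positivity
    have ht : ∀ A : Matrix (ZMod m) (ZMod m) ℂ,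
        trace (vecMulVec v.ofLp (star v.ofLp) * A) = inner ℂ v (T A v) := by
      intro A
      rw [trace_mul_comm, mul_vecMulVec, trace_vecMulVec, EuclideanSpace.inner_eq_star_dotProduct,
        hT, ofLp_toEuclideanCLM]
    refine ⟨(((‖v‖ ^ 2)⁻¹ : ℝ) : ℂ) • vecMulVec v.ofLp (star v.ofLp), ⟨?_, ?_, ?_⟩, fun A => ?_⟩
    · exact (posSemidef_vecMulVec_self_star _).smul (Complex.zero_le_real.2 (by positivity))
    · have := ht 1
      rw [Matrix.mul_one, map_one, ContinuousLinearMap.one_apply, inner_self_eq_norm_sq_to_K] at this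
      rw [trace_smul, this, smul_eq_mul]
      simp only [Complex.coe_algebraMap]
      exact_mod_cast inv_mul_cancel₀ hn
    · rw [Matrix.mul_smul, mul_vecMulVec, hP4 v hv]
    · rw [Matrix.smul_mul, trace_smul, ht, StarAlgEquiv.apply_symm_apply, smul_eq_mul,
        Complex.re_ofReal_mul]
      field_simp
  let Φ : (Fin 4 → (EuclideanSpace ℂ (ZMod m) →L[ℂ] EuclideanSpace ℂ (ZMod m))) →ₗ[ℝ]
      Matrix (ZMod m) (ZMod m) ℂ :=
    { toFun := fun s => T.symm (∑ i, (T (U i) * s i * star (T (U i)) - s i))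
      map_add' := fun s t => by
        rw [← map_add, ← Finset.sum_add_distrib]
        congr 2
        funext i
        simp only [Pi.add_apply]
        noncomm_ring
      map_smul' := fun c s => by
        rw [RingHom.id_apply, ← Complex.coe_smul, ← map_smul, Finset.smul_sum]
        congr 2
        funext i
        simp only [Pi.smul_apply, Complex.coe_smul, smul_sub, mul_smul_comm, smul_mul_assoc] }
  let F : Matrix (ZMod m) (ZMod m) ℂ →ₗ[ℝ] Matrix (ZMod m) (ZMod m) ℂ →ₗ[ℝ] ℝ :=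
    LinearMap.mk₂ ℝ (fun ρ A => (trace (ρ * A)).re)
      (fun _ _ _ => by simp [Matrix.add_mul]) (fun _ _ _ => by simp)
      (fun _ _ _ => by simp [Matrix.mul_add]) (fun _ _ _ => by simp)
  obtain ⟨v0, hv0, hv0'⟩ := Submodule.exists_mem_ne_zero_of_ne_bot hK0
  have cX : Convex ℝ {ρ : Matrix (ZMod m) (ZMod m) ℂ | ρ.PosSemidef ∧ trace ρ = 1 ∧ P * ρ = ρ} := by
    rintro x ⟨x1, x2, x3⟩ y ⟨y1, y2, y3⟩ a b ha hb hab
    refine ⟨(x1.smul ha).add (y1.smul hb), ?_, ?_⟩
    · rw [trace_add, trace_smul, trace_smul, x2, y2, ← add_smul, hab, one_smul]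
    · rw [Matrix.mul_add, Matrix.mul_smul, Matrix.mul_smul, x3, y3]
  have cY := pv_convY (H := EuclideanSpace ℂ (ZMod m))
  have kY := pv_compY (H := EuclideanSpace ℂ (ZMod m))
  have : FiniteDimensional ℝ (EuclideanSpace ℂ (ZMod m) →L[ℂ] EuclideanSpace ℂ (ZMod m)) :=
    Module.Finite.trans ℂ _
  obtain ⟨ρ, hρ, s, hs, hsad⟩ := pv_saddle (F.compl₂ Φ)
    ((hvec v0 hv0 hv0').imp fun _ h => h.1) cX (pv_compact P hP1) (by exact ⟨0, pv_zeroY⟩) cY kY
  refine ⟨s, hs, fun v hv h0 => ?_⟩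
  obtain ⟨x, hx, hxv⟩ := hvec v hv h0
  obtain ⟨t, ht1, ht2⟩ := pv_fixed U hU m (by exact_mod_cast NeZero.pos m) hg P hP1 hP2 _ hd hP3
    (by exact_mod_cast hK) ρ hρ.1 hρ.2.1 hρ.2.2
  have hy : ∀ i, IsSelfAdjoint (T (t i)) ∧ ‖T (t i)‖ ≤ 1 := by
    intro i
    have h1 : IsSelfAdjoint (T (t i)) := by
      rw [IsSelfAdjoint, ← map_star, star_eq_conjTranspose, (ht1 i).1.eq]
    refine ⟨h1, ?_⟩
    have h2 := CStarRing.norm_star_mul_self (x := T (t i))
    rw [h1.star_eq, ← map_mul, (ht1 i).2, map_one] at h2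
    have h3 : ‖(1 : EuclideanSpace ℂ (ZMod m) →L[ℂ] EuclideanSpace ℂ (ZMod m))‖ ≤ 1 :=
      ContinuousLinearMap.norm_id_le
    nlinarith [norm_nonneg (T (t i))]
  have h1 : (trace (ρ * Φ fun i => T (t i))).re ≤ (trace (x * Φ s)).re :=
    hsad x hx (fun i => T (t i)) hy
  have h2 : Φ (fun i => T (t i)) = ∑ i, (U i * t i * star (U i) - t i) := by
    simp [Φ, map_sum, ← map_star]
  rw [h2] at h1
  have h3 : 9 / 20 ≤ (trace (x * Φ s)).re := ht2.trans h1
  rw [← hxv]
  have h4 : 0 < ‖v‖ ^ 2 := by positivity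
  exact mul_lt_mul_of_pos_right (lt_of_lt_of_le (by norm_num) h3) h4

end Crest.Agent.H0188
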