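import Crest.Agent.H0188.Defs

/-! A large odd family of linear maps with small kernels, and an even continuous selection. -/

set_option autoImplicit false

namespace Crest.Agent.H0188

open Module Finset Metric

theorem exists_Q (m κ : ℕ) [NeZero m] :
    ∃ Q : (Fin m × Fin (κ + 1) → ℝ) → EuclideanSpace ℂ (ZMod m) →ₗ[ℂ] (Fin (2 * m) → ℂ),
      (Continuous fun z : (Fin m × Fin (κ + 1) → ℝ) × EuclideanSpace ℂ (ZMod m) => Q z.1 z.2) ∧
      (∀ x, Q (-x) = -Q x) ∧ ∀ x ≠ 0, finrank ℂ (LinearMap.ker (Q x)) ≤ κ := by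
  classical
  let P : (Fin m × Fin (κ + 1) → ℝ) → Fin m → ZMod m → ℝ := fun x o l =>
    ∑ d, x (o, d) * (l.val : ℝ) ^ (d : ℕ)
  let A : (Fin m × Fin (κ + 1) → ℝ) → Matrix (Fin (2 * m)) (ZMod m) ℂ := fun x =>
    Matrix.of fun i l => ∑ o : Fin m, (if (o : ℕ) + l.val = i then 1 else 0) * (P x o l : ℂ)
  refine ⟨fun x => (A x).mulVecLin ∘ₗ (WithLp.linearEquiv 2 ℂ (ZMod m → ℂ)).toLinearMap, ?_,
    fun x => ?_, fun x hx => ?_⟩
  · refine continuous_pi fun i => ?_
    simp only [A, P, LinearMap.comp_apply, Matrix.mulVecLin_apply, Matrix.mulVec, dotProduct,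
      Matrix.of_apply, LinearEquiv.coe_coe, WithLp.linearEquiv_apply]
    fun_prop
  · have : A (-x) = -A x := by
      ext i l
      simp [A, P, -ite_mul]
    simp only [this]
    ext v i
    simp
  · have hne : (univ.filter fun o : Fin m => (fun d => x (o, d)) ≠ 0).Nonempty := by
      obtain ⟨⟨o, d⟩, h⟩ := Function.ne_iff.1 hx
      exact ⟨o, mem_filter.2 ⟨mem_univ _, Function.ne_iff.2 ⟨d, h⟩⟩⟩
    obtain ⟨o, ho, hmin⟩ := exists_min_image _ id hne
    let R := univ.filter fun l : ZMod m => P x o l = 0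
    have hR : R.card ≤ κ := by
      by_contra! hc
      obtain ⟨T, hT, hc⟩ := exists_subset_card_eq (show κ + 1 ≤ R.card from hc)
      let e := (T.equivFinOfCardEq hc).symm
      refine (mem_filter.1 ho).2 (Matrix.eq_zero_of_forall_index_sum_mul_pow_eq_zero
        (f := fun i => ((e i : ZMod m).val : ℝ)) (fun i j h => ?_) fun i => ?_)
      · exact e.injective (Subtype.ext (ZMod.val_injective m (Nat.cast_injective h)))
      · exact (mem_filter.1 (hT (e i).2)).2
    let r : EuclideanSpace ℂ (ZMod m) →ₗ[ℂ] (R → ℂ) :=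
      LinearMap.funLeft ℂ ℂ Subtype.val ∘ₗ (WithLp.linearEquiv 2 ℂ (ZMod m → ℂ)).toLinearMap
    refine (LinearMap.finrank_le_finrank_of_injective (f := r.domRestrict _)
      ((injective_iff_map_eq_zero _).2 fun v hv => ?_)).trans (by simpa using hR)
    by_contra h0
    have hne : (univ.filter fun l => v.1 l ≠ 0).Nonempty := by
      by_contra hc
      refine h0 (Subtype.ext (PiLp.ext fun l => ?_))
      by_contra h1
      exact hc ⟨l, mem_filter.2 ⟨mem_univ _, h1⟩⟩
    obtain ⟨l, hl, hlmin⟩ := exists_min_image _ ZMod.val hne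
    replace hl := (mem_filter.1 hl).2
    have h1 : P x o l ≠ 0 := fun h => hl (congrFun hv ⟨l, mem_filter.2 ⟨mem_univ _, h⟩⟩)
    have h2 := congrFun (LinearMap.mem_ker.1 v.2) ⟨o + l.val, by
      have := o.2; have := l.val_lt; omega⟩
    simp only [A, LinearMap.comp_apply, Matrix.mulVecLin_apply, Matrix.mulVec, dotProduct,
      Matrix.of_apply, LinearEquiv.coe_coe, WithLp.linearEquiv_apply, Pi.zero_apply] at h2
    rw [sum_eq_single l, sum_eq_single o] at h2
    · simp [h1] at h2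
      exact hl h2
    · intro o' _ h
      rw [if_neg (fun h' => h (Fin.ext (by omega))), zero_mul]
    · simp
    · intro l' _ h
      by_cases h3 : v.1 l' = 0
      · exact mul_eq_zero_of_right _ h3
      have h4 := hlmin l' (mem_filter.2 ⟨mem_univ _, h3⟩)
      have h5 : l'.val ≠ l.val := fun h' => h (ZMod.val_injective m h')
      refine mul_eq_zero_of_left (sum_eq_zero fun o' _ => ?_) _
      by_cases h6 : (fun d => x (o', d)) = 0
      · simp [P, fun d => show x (o', d) = 0 from congrFun h6 d]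
      have h7 : (o : ℕ) ≤ o' := hmin o' (mem_filter.2 ⟨mem_univ _, h6⟩)
      rw [if_neg (by omega), zero_mul]
    · simp

theorem exists_sel {E H F W : Type} [NormedAddCommGroup E] [NormedSpace ℝ E]
    [FiniteDimensional ℝ E] [NormedAddCommGroup H] [NormedSpace ℂ H] [FiniteDimensional ℂ H]
    [NormedAddCommGroup F] [NormedSpace ℂ F] [NormedAddCommGroup W] [NormedSpace ℝ W]
    (Q : sphere (0 : E) 1 → H →ₗ[ℂ] F) (hQ : Continuous fun z : sphere (0 : E) 1 × H => Q z.1 z.2)
    (Q1 : ∀ x, Q (-x) = -Q x) (S : Set W) (hS : Convex ℝ S) (ψ : W → H → ℝ) (c : H → ℝ)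
    (hl : ∀ v, IsLinearMap ℝ (ψ · v)) (hc : ∀ s, Continuous fun v => ψ s v - c v)
    (hh : ∀ s v, c ((‖v‖⁻¹ : ℂ) • v) < ψ s ((‖v‖⁻¹ : ℂ) • v) → c v < ψ s v)
    (h : ∀ x, ∃ s ∈ S, ∀ v, Q x v = 0 → v ≠ 0 → c v < ψ s v) :
    ∃ σ : sphere (0 : E) 1 → W, Continuous σ ∧ (∀ x, σ (-x) = σ x) ∧
      ∀ x, σ x ∈ S ∧ ∀ v, Q x v = 0 → v ≠ 0 → c v < ψ (σ x) v := by
  let t : sphere (0 : E) 1 → Set W := fun x => S ∩ ⋂ v, ⋂ (_ : Q x v = 0), ⋂ (_ : v ≠ 0),
    {s | c v < ψ s v}
  have ht : ∀ x, Convex ℝ (t x) := fun x => hS.inter (convex_iInter fun v => convex_iInter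
    fun _ => convex_iInter fun _ => convex_halfSpace_gt (hl v) _)
  have := FiniteDimensional.proper ℂ H
  obtain ⟨g, hg⟩ := exists_continuous_forall_mem_convex_of_local_const ht fun x => by
    obtain ⟨s, hs, h⟩ := h x
    refine ⟨s, ((isCompact_sphere (0 : H) 1).eventually_forall_of_forall_eventually
      (P := fun y v => Q y v ≠ 0 ∨ 0 < ψ s v - c v) fun v hv => ?_).mono fun y hy => ⟨hs, ?_⟩⟩
    · by_cases h0 : Q x v = 0
      · have := sub_pos.2 (h v h0 (by rintro rfl; simp at hv))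
        exact (((hc s).comp continuous_snd).continuousAt.eventually
          (lt_mem_nhds this)).mono fun _ => Or.inr
      · exact (hQ.continuousAt.eventually_ne h0).mono fun _ => Or.inl
    · simp only [Set.mem_iInter, Set.mem_ofPred_eq]
      refine fun v h0 h1 => hh s v (sub_pos.1 ((hy _ ?_).resolve_left (by simp [h0])))
      simp [norm_smul, h1]
  refine ⟨fun x => (1 / 2 : ℝ) • g x + (1 / 2 : ℝ) • g (-x), by fun_prop,
    fun x => by simp [add_comm], fun x => ?_⟩
  have h2 : g (-x) ∈ t x := by simpa [t, Q1] using hg (-x)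
  simpa [t] using ht x (hg x) h2 (a := 1 / 2) (b := 1 / 2) (by norm_num) (by norm_num)
    (by norm_num)

end Crest.Agent.H0188
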