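import Crest.Agent.H0188.Alg
import Crest.Agent.H0188.QSpace
import Crest.Agent.H0188.POVM

/-! The data at one finite level. -/

set_option autoImplicit false

namespace Crest.Agent.H0188

open Metric Module

theorem exists_sel' {E H F : Type} [NormedAddCommGroup E] [NormedSpace ℝ E]
    [FiniteDimensional ℝ E] [NormedAddCommGroup H] [InnerProductSpace ℂ H] [FiniteDimensional ℂ H]
    [CompleteSpace H] [NormedAddCommGroup F] [NormedSpace ℂ F]
    (Q : sphere (0 : E) 1 → H →ₗ[ℂ] F) (hQ : Continuous fun z : sphere (0 : E) 1 × H => Q z.1 z.2)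
    (Q1 : ∀ x, Q (-x) = -Q x) (u : Fin 4 → H →L[ℂ] H)
    (h : ∀ x, ∃ s : Fin 4 → H →L[ℂ] H, (∀ i, IsSelfAdjoint (s i) ∧ ‖s i‖ ≤ 1) ∧
      ∀ v ∈ LinearMap.ker (Q x), v ≠ 0 →
        7 / 18 * ‖v‖ ^ 2 < (inner ℂ v ((∑ i, (u i * s i * star (u i) - s i)) v)).re) :
    ∃ σ : sphere (0 : E) 1 → Con (H →L[ℂ] H), Continuous σ ∧ (∀ x, σ (-x) = σ x) ∧
      ∀ x v, Q x v = 0 → v ≠ 0 → 7 / 18 * ‖v‖ ^ 2 <
        (inner ℂ v ((∑ i, (u i * (σ x).1 i * star (u i) - (σ x).1 i)) v)).re := by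
  obtain ⟨σ, h1, h2, h3⟩ := exists_sel Q hQ Q1 {s | ∀ i, IsSelfAdjoint (s i) ∧ ‖s i‖ ≤ 1}
    (fun a ha b hb r t hr ht e i => ⟨((IsSelfAdjoint.all r).smul (ha i).1).add
      ((IsSelfAdjoint.all t).smul (hb i).1), by
        simpa using convex_closedBall 0 1 (mem_closedBall_zero_iff.2 (ha i).2)
          (mem_closedBall_zero_iff.2 (hb i).2) hr ht e⟩)
    (fun s v => (inner ℂ v ((∑ i, (u i * s i * star (u i) - s i)) v)).re)
    (fun v => 7 / 18 * ‖v‖ ^ 2) (fun v => ⟨fun a b => by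
      simp only [Pi.add_apply, mul_add, add_mul, add_sub_add_comm, Finset.sum_add_distrib,
        add_apply, inner_add_right, Complex.add_re], fun r a => by
      simp only [Pi.smul_apply, mul_smul_comm, smul_mul_assoc, ← smul_sub, ← Finset.smul_sum,
        smul_apply, inner_smul_right_eq_smul, Complex.smul_re]⟩) (fun s => by fun_prop)
    (fun s v h => by
      rw [← Complex.ofReal_inv, Complex.coe_smul, ContinuousLinearMap.map_smul_of_tower,
        inner_smul_right_eq_smul, inner_smul_left_eq_smul, smul_smul, Complex.smul_re, norm_smul,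
        mul_pow, Real.norm_eq_abs, sq_abs, ← sq, mul_left_comm] at h
      exact lt_of_mul_lt_mul_left h (sq_nonneg _))
    fun x => (h x).imp fun s hs => ⟨hs.1, fun v hv => hs.2 v (LinearMap.mem_ker.2 hv)⟩
  exact ⟨fun x => ⟨σ x, (h3 x).1⟩, h1.subtype_mk _, fun x => Subtype.ext (h2 x),
    fun x => (h3 x).2⟩

/-- the Hilbert space at level `M` -/
abbrev HH (M : ℕ) : Type := EuclideanSpace ℂ (ZMod (40 * M + 1))

/-- the parameter space at level `M` -/
abbrev EE (M : ℕ) : Type := Fin (40 * M + 1) × Fin (4 * M + 1) → ℝ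

theorem exists_level (M : ℕ) : ∃ (u : Fin 4 → HH M →L[ℂ] HH M)
    (Q : sphere (0 : EE M) 1 → HH M →ₗ[ℂ] (Fin (2 * (40 * M + 1)) → ℂ))
    (σ : sphere (0 : EE M) 1 → Con (HH M →L[ℂ] HH M)), (∀ i, u i ∈ unitary _) ∧
      (Continuous fun z : sphere (0 : EE M) 1 × HH M => Q z.1 z.2) ∧ (∀ x, Q (-x) = -Q x) ∧
      Continuous σ ∧ (∀ x, σ (-x) = σ x) ∧ ∀ x v, Q x v = 0 → v ≠ 0 → 7 / 18 * ‖v‖ ^ 2 <
        (inner ℂ v ((∑ i, (u i * (σ x).1 i * star (u i) - (σ x).1 i)) v)).re := by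
  obtain ⟨u, hu, hs⟩ := povm (40 * M + 1)
  obtain ⟨Q, hQ, Q1, Qk⟩ := exists_Q (40 * M + 1) (4 * M)
  have hQ' : Continuous fun z : sphere (0 : EE M) 1 × HH M => Q z.1 z.2 :=
    hQ.comp (f := fun z : sphere (0 : EE M) 1 × HH M => (z.1.1, z.2)) (by fun_prop)
  obtain ⟨σ, h⟩ := exists_sel' (fun x : sphere (0 : EE M) 1 => Q x) hQ' (fun x => Q1 x) u
    fun x => hs _ (by have := Qk x (ne_zero_of_mem_unit_sphere x); omega)
  exact ⟨u, _, σ, hu, hQ', fun x => Q1 x, h⟩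

theorem kill {A H : Type} [CStarAlgebra A] [NormedAddCommGroup H] [InnerProductSpace ℂ H]
    [CompleteSpace H] (ev : A →⋆ₐ[ℂ] H →L[ℂ] H) {T G y : A}
    (e : ((7 / 18 : ℝ) • 1 - T) * G = star y * y * G) (w : H) :
    (inner ℂ (ev G w) (ev T (ev G w))).re ≤ 7 / 18 * ‖ev G w‖ ^ 2 := by
  have h := congrArg (fun a => (inner ℂ (ev G w) (ev a w)).re) e
  simp only [map_mul, mul_apply_eq_comp, map_star] at h
  generalize ev G w = v at h ⊢
  rw [ContinuousLinearMap.star_eq_adjoint, ContinuousLinearMap.adjoint_inner_right] at h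
  simp only [map_sub, ← Complex.coe_smul, map_smul, map_one, sub_apply, inner_sub_right,
    smul_apply, inner_smul_right, inner_self_eq_norm_sq_to_K, one_apply_eq_self] at h
  simp only [Complex.coe_algebraMap, ← Complex.ofReal_pow, ← Complex.ofReal_mul, Complex.sub_re,
    Complex.ofReal_re] at h
  linarith [sq_nonneg ‖ev y v‖]

end Crest.Agent.H0188
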