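import Crest.Agent.H0188.Rel
import Crest.Agent.H0188.Choquet

/-! Commutative models: dimension functions are modular. -/

set_option autoImplicit false
set_option linter.unusedSectionVars false

namespace Crest.Agent.H0188

open Matrix Filter Topology

variable {Ω : Type} [TopologicalSpace Ω] [CompactSpace Ω]

/-- regularised inverse -/
noncomputable def rinv (g : C(Ω, ℝ)) (hg : 0 ≤ g) (n : ℕ) : C(Ω, ℝ) :=
  ⟨fun x => (g x + 1 / (n + 1))⁻¹, (g.continuous.add continuous_const).inv₀ fun x => by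
    have : 0 ≤ g x := hg x
    exact (show 0 < g x + 1 / ((n : ℝ) + 1) by positivity).ne'⟩

theorem tendsto_rinv {f g : C(Ω, ℝ)} (hf : 0 ≤ f) (hg : 0 ≤ g) (h : ∀ x, 0 < f x → 0 < g x)
    (k : ℕ) : Tendsto (fun n => (g * rinv g hg n) ^ k * f) atTop (𝓝 f) := by
  refine ContinuousMap.tendsto_of_monotone_of_pointwise (fun m n hmn => ?_) fun x => ?_
  · refine ContinuousMap.le_def.2 fun x => ?_
    have h1 : 0 ≤ f x := hf x
    have h2 : 0 ≤ g x := hg x
    have h3 : (m : ℝ) ≤ n := by exact_mod_cast hmn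
    simp only [rinv, ContinuousMap.mul_apply, ContinuousMap.pow_apply, ContinuousMap.coe_mk]
    gcongr
  · simp only [rinv, ContinuousMap.mul_apply, ContinuousMap.pow_apply, ContinuousMap.coe_mk]
    rcases (show 0 ≤ f x from hf x).eq_or_lt with h1 | h1
    · simp [← h1]
    · have h2 := (h x h1).ne'
      have := ((((tendsto_one_div_add_atTop_nhds_zero_nat (𝕜 := ℝ)).const_add (g x)).inv₀
        (by simpa using h2)).const_mul (g x)).pow k |>.mul_const (f x)
      simpa [h2] using this

theorem sub_supp {f g : C(Ω, ℝ)} (hf : 0 ≤ f) (hg : 0 ≤ g) (h : ∀ x, 0 < f x → 0 < g x) :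
    Sub (fun _ : Unit => f) (fun _ : Unit => g) := by
  refine mem_closure_of_tendsto (b := atTop)
    (f := fun n : ℕ => diagonal fun _ : Unit => (g * rinv g hg n) ^ 1 * f)
    ((continuous_id.matrix_diagonal.tendsto _).comp
      (tendsto_pi_nhds.2 fun _ => tendsto_rinv hf hg h 1)) (Eventually.of_forall fun n => ?_)
  refine ⟨diagonal fun _ => rinv g hg n * f, 1, ?_⟩
  rw [Matrix.mul_one, diagonal_mul_diagonal]
  congr 1
  ext1
  ring

theorem sub_mod1 (f g : C(Ω, ℝ)) : Sub ![f + g, f * g * (f + g)] ![f, g] := by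
  refine Sub.of_eq !![1, 1; g, -f] !![1, g; 1, -f] ?_
  refine Matrix.ext fun i j => ?_
  fin_cases i <;> fin_cases j <;> simp [Matrix.mul_apply, vecMul_diagonal] <;> ring

theorem sub_mod2 {f g : C(Ω, ℝ)} (hf : 0 ≤ f) (hg : 0 ≤ g) :
    Sub ![f, g] ![f + g, f * g * (f + g)] := by
  have hs : 0 ≤ f + g := add_nonneg hf hg
  refine mem_closure_of_tendsto (b := atTop)
    (f := fun n : ℕ => diagonal fun i : Fin 2 => ((f + g) * rinv _ hs n) ^ 2 * ![f, g] i)
    ((continuous_id.matrix_diagonal.tendsto _).comp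
      (tendsto_pi_nhds.2 fun i => ?_)) (Eventually.of_forall fun n => ?_)
  · fin_cases i
    · exact tendsto_rinv hf hs (fun x hx => add_pos_of_pos_of_nonneg hx (hg x)) 2
    · exact tendsto_rinv hg hs (fun x hx => add_pos_of_nonneg_of_pos (hf x) hx) 2
  refine ⟨rinv _ hs n • !![f, 1; g, -1], rinv _ hs n • !![f, g; 1, -1], ?_⟩
  refine Matrix.ext fun i j => ?_
  fin_cases i <;> fin_cases j <;> simp [Matrix.mul_apply, vecMul_diagonal] <;> ring

variable {D : Type} [NormedRing D]

theorem modular_of_dim {d : D → ℝ} (d1 : d 1 = 1)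
    (hd : ∀ (ι κ : Type) [Fintype ι] [Fintype κ] [DecidableEq ι] [DecidableEq κ] (a : ι → D)
      (b : κ → D), Sub a b → ∑ i, d (a i) ≤ ∑ j, d (b j))
    (ρ : C(Ω, ℝ) →+* D) (hρ : Continuous ρ) : Modular fun f => d (ρ f) := by
  have mono : ∀ f g : C(Ω, ℝ), 0 ≤ f → 0 ≤ g → (∀ x, 0 < f x → 0 < g x) → d (ρ f) ≤ d (ρ g) :=
    fun f g hf hg h => by simpa using hd _ _ _ _ ((sub_supp hf hg h).map ρ hρ)
  refine ⟨mono, fun f g hf hg => ?_, ?_, by simpa using d1⟩
  · have h1 := hd _ _ _ _ ((sub_mod1 f g).map ρ hρ)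
    have h2 := hd _ _ _ _ ((sub_mod2 hf hg).map ρ hρ)
    have p1 : 0 ≤ f * g := ContinuousMap.le_def.2 fun x => mul_nonneg (hf x) (hg x)
    have p2 : 0 ≤ f * g * (f + g) :=
      ContinuousMap.le_def.2 fun x => mul_nonneg (p1 x) (add_nonneg hf hg x)
    have h3 := mono _ _ p1 p2 fun x hx => by
      have a1 : 0 ≤ f x := hf x
      have a2 : 0 ≤ g x := hg x
      have a3 : f x ≠ 0 := fun e => by simp [e] at hx
      exact mul_pos hx (add_pos_of_pos_of_nonneg (a1.lt_of_ne' a3) a2)
    have h4 := mono _ _ p2 p1 fun x hx => lt_of_le_of_ne (p1 x) fun e => by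
      have : (f * g) x = 0 := e.symm
      rw [ContinuousMap.mul_apply, this] at hx
      simp at hx
    simp only [Fin.sum_univ_two, cons_val_zero, cons_val_one] at h1 h2
    linarith
  · have h1 := hd Unit Empty (fun _ => 0) (fun x => x.elim) (Sub.of_eq 0 0 (by simp))
    have h2 := hd Empty Unit (fun x => x.elim) (fun _ => 0) (Sub.of_eq 0 0 (Subsingleton.elim _ _))
    simp at h1 h2 ⊢
    linarith

/-- commutative `⋆`-subalgebras have a function model -/
theorem exists_model {D : Type} [CStarAlgebra D] (S : StarSubalgebra ℂ D)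
    (hS : ∀ x ∈ S, ∀ y ∈ S, x * y = y * x) :
    ∃ (Ω : Type) (_ : TopologicalSpace Ω) (_ : CompactSpace Ω) (ρ : C(Ω, ℝ) →ₐ[ℝ] D),
      Continuous ρ ∧ (∀ f, ρ f⁺ = (ρ f)⁺ ∧ ρ f⁻ = (ρ f)⁻) ∧
      ∀ h ∈ S, IsSelfAdjoint h → ∃ f, ρ f = h := by
  let _ := CStarAlgebra.spectralOrder D
  have := CStarAlgebra.spectralOrderedRing D
  have : IsClosed (S.topologicalClosure : Set D) := S.isClosed_topologicalClosure
  let _ : CommCStarAlgebra S.topologicalClosure :=
    { (inferInstance : CStarAlgebra S.topologicalClosure) with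
      mul_comm := (S.commRingTopologicalClosure
        fun x y => Subtype.ext (hS _ x.2 _ y.2)).mul_comm }
  let Φ : C(WeakDual.characterSpace ℂ S.topologicalClosure, ℂ) →⋆ₐ[ℂ] D :=
    S.topologicalClosure.subtype.comp (gelfandStarTransform S.topologicalClosure).symm
  let ι : C(WeakDual.characterSpace ℂ S.topologicalClosure, ℝ) →ₐ[ℝ]
      C(WeakDual.characterSpace ℂ S.topologicalClosure, ℂ) :=
    Complex.ofRealAm.compLeftContinuous ℝ Complex.continuous_ofReal
  let ρ := (Φ.toAlgHom.restrictScalars ℝ).comp ι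
  have hsa : ∀ f, star (ρ f) = ρ f := fun f => by
    change star (Φ (ι f)) = Φ (ι f)
    rw [← map_star]
    congr 1
    ext x
    exact Complex.conj_ofReal _
  have hpos : ∀ f, 0 ≤ f → 0 ≤ ρ f := fun f hf => by
    let s : C(WeakDual.characterSpace ℂ S.topologicalClosure, ℝ) :=
      ⟨fun x => √(f x), by fun_prop⟩
    have : f = s * s := by
      ext x
      exact (Real.mul_self_sqrt (hf x)).symm
    rw [this, map_mul]
    nth_rw 1 [← hsa s]
    exact star_mul_self_nonneg _
  refine ⟨_, inferInstance, inferInstance, ρ, ?_, fun f => ?_, fun h hh hsa => ?_⟩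
  · exact (AddMonoidHomClass.continuous_of_bound Φ 1 fun x => by
      simpa using NonUnitalStarAlgHom.norm_apply_le Φ x).comp (ContinuousMap.continuous_postcomp
      ⟨Complex.ofReal, Complex.continuous_ofReal⟩)
  · have := CFC.posPart_negPart_unique (a := ρ f) (b := ρ f⁺) (c := ρ f⁻)
      (by rw [← map_sub, posPart_sub_negPart]) (by
        rw [← map_mul, ← map_zero ρ]
        congr 1
        ext x
        rcases le_total 0 (f x) with h | h <;> simp [posPart_def, negPart_def, h])
      (hpos _ (posPart_nonneg f)) (hpos _ (negPart_nonneg f))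
    exact ⟨this.1.symm, this.2.symm⟩
  · let g := gelfandStarTransform S.topologicalClosure ⟨h, S.le_topologicalClosure hh⟩
    have hg : star g = g := by
      rw [← map_star]
      congr 1
      exact Subtype.ext hsa
    refine ⟨⟨fun x => (g x).re, by fun_prop⟩, ?_⟩
    have : ι ⟨fun x => (g x).re, by fun_prop⟩ = g := by
      ext x
      exact Complex.conj_eq_iff_re.1 (congrArg (fun u => u x) hg)
    change Φ (ι _) = h
    rw [this]
    simp [Φ, g]

end Crest.Agent.H0188
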