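import Crest.Agent.H0188.Quot
import Crest.Agent.H0188.BU

/-! The rank condition for the quotient killing one element. -/

set_option autoImplicit false

namespace Crest.Agent.H0188

open Module Metric Finset

theorem np_quot {A : Type} [CStarAlgebra A] (G : A) {E H F : ℕ → Type}
    [∀ M, NormedAddCommGroup (E M)] [∀ M, NormedSpace ℝ (E M)] [∀ M, FiniteDimensional ℝ (E M)]
    [∀ M, NormedAddCommGroup (H M)] [∀ M, InnerProductSpace ℂ (H M)]
    [∀ M, FiniteDimensional ℂ (H M)] [∀ M, CompleteSpace (H M)] [∀ M, Nontrivial (H M)]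
    [∀ M, NormedAddCommGroup (F M)] [∀ M, NormedSpace ℂ (F M)] [∀ M, FiniteDimensional ℂ (F M)]
    (hd : ∀ M, M * finrank ℝ (F M) < finrank ℝ (E M))
    (ev : ∀ M, sphere (0 : E M) 1 → A →⋆ₐ[ℂ] (H M →L[ℂ] H M))
    (evc : ∀ M a, Continuous fun x => ev M x a) (eve : ∀ M x, ev M (-x) = ev M x)
    (Q : ∀ M, sphere (0 : E M) 1 → H M →ₗ[ℂ] F M)
    (hQ : ∀ M, Continuous fun z : sphere (0 : E M) 1 × H M => Q M z.1 z.2)
    (Q1 : ∀ M x, Q M (-x) = -Q M x)
    (hG : ∀ M x w, Q M x (ev M x G w) = 0 → ev M x G w = 0) :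
    ∃ (B : Type) (_ : CStarAlgebra B) (π : A →⋆ₐ[ℂ] B),
      Function.Surjective π ∧ NP B ∧ π G = 0 := by
  classical
  have hev : ∀ M x a v, ‖ev M x a v‖ ≤ ‖a‖ * ‖v‖ := fun M x a v =>
    ((ev M x a).le_opNorm v).trans (mul_le_mul_of_nonneg_right
      (NonUnitalStarAlgHom.norm_apply_le _ a) (norm_nonneg _))
  let I : Ideal A :=
    { carrier := {a | ∀ ε > 0, ∃ s : Finset A, ∀ M x v, (∀ α ∈ s, ev M x (G * α) v = 0) →
        ‖ev M x a v‖ ≤ ε * ‖v‖}
      zero_mem' := fun ε hε => ⟨∅, fun M x v _ => by simpa using by positivity⟩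
      add_mem' := fun {a b} ha hb ε hε => by
        obtain ⟨s, hs⟩ := ha _ (half_pos hε)
        obtain ⟨t, ht⟩ := hb _ (half_pos hε)
        refine ⟨s ∪ t, fun M x v h => ?_⟩
        rw [map_add, add_apply]
        linarith [norm_add_le (ev M x a v) (ev M x b v),
          hs M x v fun α hα => h α (mem_union_left _ hα),
          ht M x v fun α hα => h α (mem_union_right _ hα)]
      smul_mem' := fun c a ha ε hε => by
        obtain ⟨s, hs⟩ := ha (ε / (‖c‖ + 1)) (by positivity)
        refine ⟨s, fun M x v h => ?_⟩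
        rw [smul_eq_mul, map_mul, mul_apply_eq_comp]
        refine (hev ..).trans ((mul_le_mul (le_add_of_nonneg_right zero_le_one) (hs M x v h)
          (norm_nonneg _) (by positivity)).trans_eq ?_)
        field_simp }
  have : I.IsTwoSided := ⟨fun {a} c ha ε hε => by
    obtain ⟨s, hs⟩ := ha (ε / (‖c‖ + 1)) (by positivity)
    refine ⟨s.image (· * c), fun M x v h => ?_⟩
    rw [map_mul, mul_apply_eq_comp]
    refine (hs M x _ fun α hα => ?_).trans ((mul_le_mul_of_nonneg_left ((hev ..).trans
      (mul_le_mul_of_nonneg_right (le_add_of_nonneg_right zero_le_one) (norm_nonneg _)))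
        (by positivity)).trans_eq (by field_simp))
    simpa [mul_assoc] using h _ (mem_image_of_mem _ hα)⟩
  have hI : IsClosed (I : Set A) := isClosed_of_closure_subset fun a ha ε hε => by
    obtain ⟨b, hb, h⟩ := Metric.mem_closure_iff.1 ha _ (half_pos hε)
    obtain ⟨s, hs⟩ := hb _ (half_pos hε)
    refine ⟨s, fun M x v h0 => ?_⟩
    have h1 := hev M x (a - b) v
    rw [map_sub, sub_apply, ← dist_eq_norm a] at h1
    nlinarith [norm_sub_norm_le (ev M x a v) (ev M x b v), hs M x v h0, norm_nonneg v]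
  obtain ⟨B, _, π, h1, h2⟩ := exists_quot I hI
  refine ⟨B, _, π, h1, fun j k z w e => ?_, (h2 G).2 fun ε hε => ⟨{1}, fun M x v h => by
    simpa [show ev M x G v = 0 by simpa using h 1] using by positivity⟩⟩
  by_contra! hjk
  choose z' hz using fun a b => h1 (z a b)
  choose w' hw using fun a b => h1 (w a b)
  have hε : (0 : ℝ) < 1 / (j + 1) := by positivity
  choose s hs using fun a b : Fin j => (h2 (∑ c, z' a c * w' c b - if a = b then 1 else 0)).1 (by
    have := congrFun (congrFun e a) b
    simp only [map_sub, map_sum, map_mul, hz, hw, apply_ite π, map_one, map_zero]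
    rwa [Matrix.mul_apply, Matrix.one_apply, ← sub_eq_zero] at this) _ hε
  let t := univ.biUnion fun a => univ.biUnion fun b => s a b
  let M := Fintype.card (t × Fin j)
  obtain ⟨x, v, hv, hf, hg⟩ := bu2 (E := E M) (V := Fin j → H M) (F := Fin k → H M)
    (G := t × Fin j → F M) (by rw [finrank_pi_fintype]; simpa [M] using hd M)
    (by simpa [finrank_pi_fintype, finrank_pos] using hjk)
    (fun x v c => ∑ b, ev M x (w' c b) (v b)) (fun x v l => Q M x (ev M x (G * l.1) (v l.2)))
    (continuous_pi fun c => continuous_finsetSum _ fun b _ =>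
      ((evc M _).comp continuous_fst).clm_apply (by fun_prop))
    (continuous_pi fun l => (hQ M).comp (continuous_fst.prodMk
      (((evc M _).comp continuous_fst).clm_apply (by fun_prop))))
    (fun x v => by simp only [eve]) (fun x v => by ext; simp)
    (fun x v => by ext; simp [eve, Q1]) (fun x v => by ext; simp)
  refine (pi_norm_le_iff_of_nonneg (by positivity)).2 (fun a => ?_) |>.not_gt
    (show j * (1 / (j + 1) * ‖v‖) < ‖v‖ from ?_)
  · have h3 : v a = -∑ b, ev M x (∑ c, z' a c * w' c b - if a = b then 1 else 0) (v b) := by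
      simp only [map_sub, map_sum, map_mul, sub_apply,
        _root_.sum_apply, mul_apply_eq_comp, sum_sub_distrib]
      rw [sum_comm]
      simp [← map_sum, fun c => show ∑ b, ev M x (w' c b) (v b) = 0 from congrFun hf c,
        apply_ite (ev M x), DFunLike.ite_apply]
    rw [h3, norm_neg]
    refine (norm_sum_le _ _).trans ((sum_le_card_nsmul _ _ _ fun b _ => (hs a b M x _
      fun α hα => ?_).trans (mul_le_mul_of_nonneg_left (norm_le_pi_norm v b) hε.le)).trans_eq
        (by simp))
    have := congrFun hg (⟨α, by simp only [t, mem_biUnion, mem_univ, true_and]; exact ⟨a, b, hα⟩⟩, b)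
    simp only [map_mul, mul_apply_eq_comp, Pi.zero_apply] at this ⊢
    exact hG M x _ this
  · rw [← mul_assoc]
    refine mul_lt_of_lt_one_left (norm_pos_iff.2 hv) ?_
    rw [mul_one_div, div_lt_one (by positivity)]
    linarith

end Crest.Agent.H0188
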