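import Crest.Agent.H0188.Quasi

/-! From a traceless algebra with the rank condition to non-additive quasitraces. -/

set_option autoImplicit false

namespace Crest.Agent.H0188

open Matrix Crest.OpAlg Finset

theorem NP.card_le {A : Type} [Ring A] (h : NP A) {ι κ : Type} [Fintype ι] [Fintype κ]
    [DecidableEq ι] (z : Matrix ι κ A) (w : Matrix κ ι A) (e : z * w = 1) :
    Fintype.card ι ≤ Fintype.card κ := by
  refine h _ _ (z.submatrix (Fintype.equivFin ι).symm (Fintype.equivFin κ).symm)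
    (w.submatrix (Fintype.equivFin κ).symm (Fintype.equivFin ι).symm) ?_
  rw [submatrix_mul_equiv, e, submatrix_one_equiv]

theorem NP.matrix {A : Type} [Ring A] (h : NP A) (n : Type) [Fintype n] [DecidableEq n]
    [Nonempty n] : NP (Matrix n n A) := by
  intro j k z w e
  have := h.card_le (comp _ _ _ _ _ z) (comp _ _ _ _ _ w) (by
    rw [← comp_one, ← e]
    ext ⟨a, b⟩ ⟨c, d⟩
    simp [Matrix.mul_apply, Fintype.sum_prod_type, Matrix.sum_apply])
  simpa [Fintype.card_pos] using this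

theorem NP.of_ringHom {A A' : Type} [Ring A] [Ring A'] (h : NP A') (φ : A →+* A') : NP A :=
  fun j k z w e => h j k (z.map φ) (w.map φ) (by
    rw [← Matrix.map_mul, e, Matrix.map_one _ (map_zero φ) (map_one φ)])

section alg

variable {C : Type} [Ring C] [StarRing C] [Algebra ℂ C] [StarModule ℂ C] {τ : C → ℂ}

theorem q_comp {C' : Type} [Ring C'] [StarRing C'] [Algebra ℂ C'] [StarModule ℂ C']
    (hτ : IsOneQuasitrace τ) (φ : C' →⋆ₙₐ[ℂ] C) : IsOneQuasitrace fun x => τ (φ x) := by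
  refine ⟨fun x => by simpa only [map_mul, map_star] using hτ.1 (φ x), fun h k hh hk => by
    simpa only [map_add, map_smul] using hτ.2.1 _ _ (hh.map φ) (hk.map φ), fun S hS => ?_⟩
  have hc : IsMulCommutative (StarAlgebra.adjoin ℂ (φ '' S)) :=
    StarAlgebra.isMulCommutative_adjoin ℂ (by
      rintro _ ⟨x, hx, rfl⟩ _ ⟨y, hy, rfl⟩
      rw [← map_mul, hS x hx y hy, map_mul]) (by
      rintro _ ⟨x, hx, rfl⟩ _ ⟨y, hy, rfl⟩
      rw [← map_star, ← map_mul, hS x hx _ (star_mem hy), map_mul])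
  obtain ⟨h1, h2⟩ := hτ.2.2 (StarAlgebra.adjoin ℂ (φ '' S)) fun _ hx _ hy => setLike_mul_comm hx hy
  have m : ∀ x ∈ S, φ x ∈ StarAlgebra.adjoin ℂ (φ '' S) := fun x hx =>
    StarAlgebra.subset_adjoin ℂ _ ⟨x, hx, rfl⟩
  exact ⟨fun x hx y hy => by simpa only [map_add] using h1 _ (m x hx) _ (m y hy),
    fun c x hx => by simpa only [map_smul] using h2 c _ (m x hx)⟩

theorem q_scale (hτ : IsOneQuasitrace τ) (r : ℝ) (hr : 0 ≤ r) :
    IsOneQuasitrace fun x => r * τ x := by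
  refine ⟨fun x => ?_, fun h k hh hk => by simp only [hτ.2.1 h k hh hk]; ring, fun S hS => ?_⟩
  · obtain ⟨h1, h2, h3⟩ := hτ.1 x
    exact ⟨by simp only [h1], by simp [h2], by simpa [h2] using mul_nonneg hr h3⟩
  · obtain ⟨h1, h2⟩ := hτ.2.2 S hS
    exact ⟨fun x hx y hy => by simp only [h1 x hx y hy]; ring,
      fun c x hx => by simp only [h2 c x hx]; ring⟩

theorem q_fam (hτ : IsOneQuasitrace τ) {ι : Type} (a : ι → C) (ha : ∀ i, IsSelfAdjoint (a i))
    (hc : ∀ i j, a i * a j = a j * a i) (c : ι → ℂ) (s : Finset ι) :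
    τ (∑ i ∈ s, c i • a i) = ∑ i ∈ s, c i * τ (a i) := by
  classical
  have hc : IsMulCommutative (StarAlgebra.adjoin ℂ (Set.range a)) :=
    StarAlgebra.isMulCommutative_adjoin ℂ (by
      rintro _ ⟨x, rfl⟩ _ ⟨y, rfl⟩; exact hc x y) (by
      rintro _ ⟨x, rfl⟩ _ ⟨y, rfl⟩; rw [(ha y).star_eq]; exact hc x y)
  obtain ⟨h1, h2⟩ := hτ.2.2 (StarAlgebra.adjoin ℂ (Set.range a))
    fun _ hx _ hy => setLike_mul_comm hx hy
  have m : ∀ i, a i ∈ StarAlgebra.adjoin ℂ (Set.range a) := fun i =>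
    StarAlgebra.subset_adjoin ℂ _ ⟨i, rfl⟩
  induction s using Finset.induction_on with
  | empty => simpa using h2 0 0 (zero_mem _)
  | insert i s hi ih =>
    rw [sum_insert hi, sum_insert hi, h1 _ (SMulMemClass.smul_mem _ (m i)) _
      (sum_mem fun j _ => SMulMemClass.smul_mem _ (m j)), h2 _ _ (m i), ih]

theorem q_aff (hτ : IsOneQuasitrace τ) {a : C} (ha : IsSelfAdjoint a) (s t : ℂ) :
    τ (s • 1 + t • a) = s * τ 1 + t * τ a := by
  simpa using q_fam hτ ![1, a] (fun i => by fin_cases i; exacts [.one C, ha])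
    (fun i j => by fin_cases i <;> fin_cases j <;> simp) ![s, t] univ

variable {n : Type} [Fintype n] [DecidableEq n]

/-- the corner embedding -/
def corner (i : n) : C →⋆ₙₐ[ℂ] Matrix n n C where
  toFun x := single i i x
  map_smul' c x := by simp [smul_single]
  map_zero' := single_zero i i
  map_add' := single_add i i
  map_mul' x y := (single_mul_single_same _ _ _ _ _).symm
  map_star' x := by simp [star_eq_conjTranspose]

theorem q_corner {τ : Matrix n n C → ℂ} (hτ : IsOneQuasitrace τ) (i j : n) (y : C) :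
    τ (single j j (star y * y)) = τ (single i i (star y * y)) := by
  have h1 := (hτ.1 (single i j y)).1
  have h2 := (hτ.1 (single i i y)).1
  simp only [star_eq_conjTranspose, conjTranspose_single, single_mul_single_same] at h1 h2
  rw [h1, h2]

theorem q_diag {τ : Matrix n n C → ℂ} (hτ : IsOneQuasitrace τ) (i : n) (a : n → C)
    (ha : ∀ j, ∃ y, a j = star y * y) : τ (diagonal a) = ∑ j, τ (single i i (a j)) := by
  have := q_fam hτ (fun j => single j j (a j)) (fun j => by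
    obtain ⟨y, hy⟩ := ha j
    exact (hy ▸ IsSelfAdjoint.star_mul_self y : IsSelfAdjoint (a j)).map (corner j))
    (fun j k => by
      by_cases h : j = k
      · rw [h]
      · rw [single_mul_single_of_ne _ _ _ _ h, single_mul_single_of_ne _ _ _ _ (Ne.symm h)])
    (fun _ => 1) univ
  simp only [one_smul, one_mul, sum_single_eq_diagonal] at this
  rw [this]
  refine sum_congr rfl fun j _ => ?_
  obtain ⟨y, hy⟩ := ha j
  rw [hy, q_corner hτ i j]

theorem q_one {τ : Matrix n n C → ℂ} (hτ : IsOneQuasitrace τ) (i : n) :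
    τ 1 = Fintype.card n * τ (single i i 1) := by
  simpa using q_diag hτ i (fun _ => 1) fun _ => ⟨1, by simp⟩

end alg

theorem exists_two (A : Type) [CStarAlgebra A] (h : NP A) :
    ∃ τ : A → ℂ, IsNormalizedTwoQuasitrace τ := by
  let _ := CStarAlgebra.spectralOrder A
  have := CStarAlgebra.spectralOrderedRing A
  let φ := CStarMatrix.ofMatrixStarAlgEquiv (n := Fin 2) (A := A)
  obtain ⟨τ, h1, h2⟩ := exists_quasitrace (CStarMatrix (Fin 2) (Fin 2) A)
    ((h.matrix (Fin 2)).of_ringHom φ.symm.toRingEquiv.toRingHom)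
  have h3 := q_scale (q_comp h1 (φ : Matrix (Fin 2) (Fin 2) A →⋆ₙₐ[ℂ] CStarMatrix (Fin 2) (Fin 2) A)) 2 zero_le_two
  refine ⟨_, q_comp h3 (corner 0), ?_, _, h3, fun _ => rfl⟩
  have := q_one (q_comp h1 (φ : Matrix (Fin 2) (Fin 2) A →⋆ₙₐ[ℂ] CStarMatrix (Fin 2) (Fin 2) A)) 0
  simp only [NonUnitalStarAlgHom.coe_coe, map_one, h2, Fintype.card_fin] at this
  exact this.symm

theorem main_of (B : Type) [CStarAlgebra B] [PartialOrder B] [StarOrderedRing B]
    [TopologicalSpace.SeparableSpace B] (h : NP B) (p u : Fin 4 → B) (p0 : ∀ i, 0 ≤ p i)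
    (p1 : ∀ i, p i ≤ 1) (hu : ∀ i, u i ∈ unitary B)
    (hY : ∑ i, (p i + u i * (1 - p i) * star (u i)) ≤ (137 / 36 : ℝ) • 1) :
    ∃ (A : Type) (_ : CStarAlgebra A), TopologicalSpace.SeparableSpace A ∧
      (∃ τ : A → ℂ, IsNormalizedTwoQuasitrace τ) ∧
      ∃ a b : A, (∃ x : A, a = star x * x) ∧ ‖a‖ ≤ 1 ∧ (∃ y : A, b = star y * y) ∧ ‖b‖ ≤ 1 ∧
        ∀ τ : A → ℂ, IsNormalizedTwoQuasitrace τ →
          (1 : ℝ) / 144 ≤ (τ (a + b) - τ a - τ b).re := by
  let φ := CStarMatrix.ofMatrixStarAlgEquiv (n := Fin 7) (A := B)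
  let q : Fin 4 → B := fun i => u i * (1 - p i) * star (u i)
  have q0 : ∀ i, 0 ≤ q i := fun i => star_right_conjugate_nonneg (sub_nonneg.2 (p1 i)) _
  let y : ℕ → B := fun k => (1 / 4 : ℝ) • (![p 0, q 0, p 1, q 1, p 2, q 2, p 3, q 3]
    (Fin.ofNat 8 k))
  have y0 : ∀ k, 0 ≤ y k := fun k => smul_nonneg (by norm_num) (by
    generalize Fin.ofNat 8 k = j
    fin_cases j <;> simp [p0, q0])
  let s : ℕ → B := fun k => ∑ i ∈ range k, y i
  have s0 : ∀ k, 0 ≤ s k := fun k => sum_nonneg fun i _ => y0 i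
  have s8 : s 8 ≤ (137 / 144 : ℝ) • 1 := by
    have := smul_le_smul_of_nonneg_left hY (show (0 : ℝ) ≤ 1 / 4 by norm_num)
    rw [smul_smul] at this
    convert this using 1
    · simp [s, y, q, sum_range_succ, Fin.sum_univ_four, Fin.ofNat, add_assoc]
    · norm_num
  have s1 : ∀ k ≤ 8, s k ≤ 1 := fun k hk =>
    ((sum_le_sum_of_subset_of_nonneg (range_subset_range.2 hk) fun i _ _ => y0 i).trans s8).trans
      (by simpa using smul_le_smul_of_nonneg_right (show (137 / 144 : ℝ) ≤ 1 by norm_num)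
            (zero_le_one' B))
  have y1 : ∀ k < 8, y k ≤ 1 := fun k hk =>
    (single_le_sum (fun i _ => y0 i) (mem_range.2 hk)).trans (s1 8 le_rfl)
  have sq : ∀ {x : B}, 0 ≤ x → ∃ z, x = star z * z := CStarAlgebra.nonneg_iff_eq_star_mul_self.1
  have dg : ∀ a : Fin 7 → B, (∀ j, 0 ≤ a j) → ∃ x, φ (diagonal a) = star x * x := fun a ha => by
    choose z hz using fun j => sq (ha j)
    refine ⟨φ (diagonal z), ?_⟩
    rw [← map_star, ← map_mul, star_eq_conjTranspose, diagonal_conjTranspose,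
      diagonal_mul_diagonal]
    congr 2
    exact funext hz
  have nm : ∀ a : Fin 7 → B, (∀ j, 0 ≤ a j) → ‖φ (diagonal fun j => 1 - a j)‖ ≤ 1 ∨
      ¬ ∀ j, a j ≤ 1 := fun a ha => by
    refine or_not_of_imp fun h1 => ?_
    obtain ⟨x, hx⟩ := dg (fun j => 1 - a j) fun j => sub_nonneg.2 (h1 j)
    obtain ⟨z, hz⟩ := dg a ha
    rw [CStarAlgebra.norm_le_one_iff_of_nonneg _ (hx ▸ star_mul_self_nonneg x), ← sub_nonneg,
      ← map_one φ, ← map_sub, ← diagonal_one, diagonal_sub]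
    simp only [sub_sub_cancel]
    exact hz ▸ star_mul_self_nonneg z
  have a1 : ∀ j : Fin 7, s (j + 1) ≤ 1 := fun j => s1 _ (by omega)
  have b1 : ∀ j : Fin 7, y (j + 1) ≤ 1 := fun j => y1 _ (by omega)
  refine ⟨CStarMatrix (Fin 7) (Fin 7) B, inferInstance,
    inferInstanceAs (TopologicalSpace.SeparableSpace (Fin 7 → Fin 7 → B)),
    exists_two _ ((h.matrix (Fin 7)).of_ringHom φ.symm.toRingEquiv.toRingHom),
    φ (diagonal fun j => 1 - s (j + 1)), φ (diagonal fun j => 1 - y (j + 1)),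
    dg _ fun j => sub_nonneg.2 (a1 j), (nm _ fun j => s0 _).resolve_right (not_not.2 a1),
    dg _ fun j => sub_nonneg.2 (b1 j), (nm _ fun j => y0 _).resolve_right (not_not.2 b1),
    fun τ hτ => ?_⟩
  have h1 := q_comp hτ.1 (φ : Matrix (Fin 7) (Fin 7) B →⋆ₙₐ[ℂ] CStarMatrix (Fin 7) (Fin 7) B)
  have hf := q_comp h1 (corner (0 : Fin 7))
  have f1 := q_one h1 0
  simp only [NonUnitalStarAlgHom.coe_coe, map_one, hτ.2.1, Fintype.card_fin] at f1 h1 hf
  set f : B → ℂ := fun x => τ (φ (corner (0 : Fin 7) x)) with hfd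
  replace f1 : (1 : ℂ) = 7 * f 1 := f1
  have dd : ∀ a : Fin 7 → B, (∀ j, 0 ≤ a j) → τ (φ (diagonal a)) = ∑ j, f (a j) := fun a ha =>
    q_diag h1 0 a fun j => sq (ha j)
  have aff : ∀ x : B, 0 ≤ x → ∀ t : ℝ, f (t • 1 - x) = t * f 1 - f x := fun x hx t => by
    simpa [sub_eq_add_neg] using q_aff hf hx.isSelfAdjoint t (-1)
  have sm : ∀ x : B, 0 ≤ x → f ((1 / 4 : ℝ) • x) = 1 / 4 * f x := fun x hx => by
    simpa [← Complex.coe_smul] using q_aff hf hx.isSelfAdjoint 0 (1 / 4)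
  have pq : ∀ i, f (q i) = f 1 - f (p i) := fun i => by
    obtain ⟨z, hz⟩ := sq (sub_nonneg.2 (p1 i))
    have e1 := (hf.1 (z * star (u i))).1
    have e2 := (hf.1 z).1
    have e3 := aff (p i) (p0 i) 1
    rw [star_mul, star_star, mul_assoc z, ← mul_assoc (star (u i)), (hu i).1, one_mul] at e1
    simp only [one_smul, Complex.ofReal_one, one_mul] at e3
    rw [← e3, hz, e2, ← e1]
    simp only [q, hz, mul_assoc]
  rw [← map_add, diagonal_add, dd _ fun j => add_nonneg (sub_nonneg.2 (a1 j)) (sub_nonneg.2 (b1 j)),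
    dd _ fun j => sub_nonneg.2 (a1 j), dd _ fun j => sub_nonneg.2 (b1 j), ← sum_sub_distrib,
    ← sum_sub_distrib]
  have e : ∀ j : ℕ, f (1 - s (j + 1) + (1 - y (j + 1))) - f (1 - s (j + 1)) - f (1 - y (j + 1)) =
      f (y (j + 1)) + (f (s (j + 1)) - f (s (j + 1 + 1))) := fun j => by
    have e1 := aff _ (s0 (j + 1)) 1
    have e2 := aff _ (y0 (j + 1)) 1
    have e3 := aff _ (s0 (j + 1 + 1)) 2
    rw [one_smul] at e1 e2
    rw [show 1 - s (j + 1) + (1 - y (j + 1)) = (2 : ℝ) • 1 - s (j + 1 + 1) by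
      simp only [s, sum_range_succ _ (j + 1), two_smul]; abel, e1, e2, e3]
    push_cast; ring
  simp only [e]
  rw [Fin.sum_univ_eq_sum_range (fun j => f (y (j + 1)) + (f (s (j + 1)) - f (s (j + 1 + 1)))) 7,
    sum_add_distrib, sum_range_sub' (fun j => f (s (j + 1))), show s (0 + 1) = y 0 by simp [s]]
  obtain ⟨z, hz⟩ := sq (sub_nonneg.2 s8)
  have e4 := (hf.1 z).2.2
  rw [← hz, aff _ (s0 8)] at e4
  have e5 : ∑ j ∈ range 7, f (y (j + 1)) + f (y 0) = f 1 := by
    simp only [sum_range_succ, sum_range_zero, y, Fin.ofNat, Nat.reduceMod, Nat.reduceAdd]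
    simp only [Fin.reduceFinMk, Matrix.cons_val, sm _ (p0 _), sm _ (q0 _), pq]
    ring
  have e6 : f 1 = 1 / 7 := by linear_combination -f1 / 7
  rw [add_sub, e5, e6]
  rw [e6] at e4
  norm_num at e4 ⊢
  linarith

end Crest.Agent.H0188
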