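import Crest.Agent.H0188.Model

/-! Existence of quasitraces under the rank condition. -/

set_option autoImplicit false

namespace Crest.Agent.H0188

open Matrix Complex
open scoped ComplexStarModule

variable {D : Type} [CStarAlgebra D]

theorem neg_mul_pos_zero {x h k : D} (hh : IsSelfAdjoint h) (hk : IsSelfAdjoint k)
    (e : x * h = k * x) : k⁻ * x * h⁺ = 0 := by
  let _ := CStarAlgebra.spectralOrder D
  have := CStarAlgebra.spectralOrderedRing D
  have hp : 0 ≤ h⁺ := CFC.posPart_nonneg h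
  have hn : 0 ≤ k⁻ := CFC.negPart_nonneg k
  have e1 : h * h⁺ = h⁺ * h⁺ := by
    nth_rw 1 [← CFC.posPart_sub_negPart h]
    rw [sub_mul, CFC.negPart_mul_posPart, sub_zero]
  have e2 : k⁻ * k = -(k⁻ * k⁻) := by
    nth_rw 2 [← CFC.posPart_sub_negPart k]
    rw [mul_sub, CFC.negPart_mul_posPart, zero_sub]
  generalize h⁺ = p at *
  generalize k⁻ = n at *
  set y := n * x * p with hy
  have e3 : y * p = -(n * y) := by
    rw [hy, mul_assoc, ← e1, ← mul_assoc, mul_assoc n, e, ← mul_assoc, e2]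
    noncomm_ring
  have p1 : 0 ≤ star y * n * y := star_left_conjugate_nonneg hn y
  have e4 : star y * y * p = -(star y * n * y) := by rw [mul_assoc, e3]; noncomm_ring
  have c : Commute (star y * y) p := by
    have := p1.isSelfAdjoint.neg.star_eq
    rw [← e4, star_mul, hp.isSelfAdjoint.star_eq, (IsSelfAdjoint.star_mul_self y).star_eq] at this
    exact this.symm
  have p2 : star y * n * y = 0 :=
    le_antisymm (neg_nonneg.1 (e4 ▸ c.mul_nonneg (star_mul_self_nonneg y) hp)) p1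
  obtain ⟨s, rfl⟩ := CStarAlgebra.nonneg_iff_eq_star_mul_self.1 hn
  have p3 : s * y = 0 := (CStarRing.star_mul_self_eq_zero_iff _).1 (by
    rw [← p2, star_mul]; noncomm_ring)
  refine (CStarRing.star_mul_self_eq_zero_iff _).1 ?_
  nth_rw 1 [hy]
  rw [star_mul, star_mul, (IsSelfAdjoint.star_mul_self s).star_eq, mul_assoc, mul_assoc, mul_assoc,
    p3]
  simp

theorem intertwine_posPart {x h k : D} (hh : IsSelfAdjoint h) (hk : IsSelfAdjoint k)
    (e : x * h = k * x) : x * h⁺ = k⁺ * x := by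
  let _ := CStarAlgebra.spectralOrder D
  have := CStarAlgebra.spectralOrderedRing D
  have a1 := neg_mul_pos_zero hh hk e
  have a2 := neg_mul_pos_zero hh.neg hk.neg (x := x) (by rw [mul_neg, neg_mul, e])
  rw [CFC.negPart_neg, CFC.posPart_neg] at a2
  have e1 : x * h⁺ - k⁺ * x = x * h⁻ - k⁻ * x := by
    rw [← CFC.posPart_sub_negPart h, ← CFC.posPart_sub_negPart k, mul_sub, sub_mul] at e
    linear_combination (norm := abel1) e
  set w := x * h⁺ - k⁺ * x with hw
  have b1 : w * h⁺ = 0 := by rw [e1, sub_mul, a1, mul_assoc, CFC.negPart_mul_posPart]; simp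
  have b2 : k⁺ * w = 0 := by
    rw [e1, mul_sub, ← mul_assoc, a2, ← mul_assoc, CFC.posPart_mul_negPart]; simp
  have b3 : star w * w = h⁺ * (star x * w) := by
    nth_rw 1 [hw]
    rw [star_sub, star_mul, star_mul, (CFC.posPart_nonneg h).isSelfAdjoint.star_eq,
      (CFC.posPart_nonneg k).isSelfAdjoint.star_eq, sub_mul, mul_assoc (star x), b2]
    simp [mul_assoc]
  refine sub_eq_zero.1 ((CStarRing.star_mul_self_eq_zero_iff _).1
    ((CStarRing.star_mul_self_eq_zero_iff _).1 ?_))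
  rw [(IsSelfAdjoint.star_mul_self w).star_eq]
  nth_rw 2 [b3]
  rw [mul_assoc, ← mul_assoc w, b1]
  simp

noncomputable def TD (d : D → ℝ) (h : D) : ℝ :=
  ⨅ n : ℕ, (∑' i : ℕ, d ((((n + 1 : ℕ) : ℝ) • h - (i : ℝ) • 1)⁺)) / (n + 1)

noncomputable def sig (d : D → ℝ) (h : D) : ℝ := TD d h⁺ - TD d h⁻

theorem comm_adjoin_one {a : D} (ha : IsSelfAdjoint a) : ∀ x ∈ StarAlgebra.adjoin ℂ {a},
    ∀ y ∈ StarAlgebra.adjoin ℂ {a}, x * y = y * x := fun _ hx _ hy =>
  have := ha.isStarNormal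
  setLike_mul_comm hx hy

theorem exists_quasitrace (D : Type) [CStarAlgebra D] (h : NP D) :
    ∃ τ : D → ℂ, Crest.OpAlg.IsOneQuasitrace τ ∧ τ 1 = 1 := by
  let _ := CStarAlgebra.spectralOrder D
  have := CStarAlgebra.spectralOrderedRing D
  obtain ⟨d, d1, hd⟩ := exists_dim h
  have model : ∀ S : StarSubalgebra ℂ D, (∀ x ∈ S, ∀ y ∈ S, x * y = y * x) →
      ∃ (Ω : Type) (_ : TopologicalSpace Ω) (_ : CompactSpace Ω) (ρ : C(Ω, ℝ) →ₐ[ℝ] D),
        Modular (fun f => d (ρ f)) ∧ (∀ f, ρ f⁺ = (ρ f)⁺ ∧ ρ f⁻ = (ρ f)⁻) ∧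
        (∀ f, TD d (ρ f) = TT (fun f => d (ρ f)) f) ∧
        ∀ h ∈ S, IsSelfAdjoint h → ∃ f, ρ f = h := by
    intro S hS
    obtain ⟨Ω, _, _, ρ, h1, h2, h3⟩ := exists_model S hS
    refine ⟨Ω, _, inferInstance, ρ, modular_of_dim d1 hd ρ.toRingHom h1, h2, fun f => ?_, h3⟩
    simp only [TD, TT, (h2 _).1, map_sub, map_smul, map_one]
  have lin : ∀ S : StarSubalgebra ℂ D, (∀ x ∈ S, ∀ y ∈ S, x * y = y * x) →
      ∀ x ∈ S, ∀ y ∈ S, IsSelfAdjoint x → IsSelfAdjoint y → ∀ s t : ℝ,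
        sig d (s • x + t • y) = s * sig d x + t * sig d y := by
    intro S hS x hx y hy sx sy s t
    obtain ⟨Ω, _, _, ρ, h1, h2, h3, h4⟩ := model S hS
    obtain ⟨L, hL⟩ := h1.exists_linear
    obtain ⟨f, rfl⟩ := h4 x hx sx
    obtain ⟨g, rfl⟩ := h4 y hy sy
    have : ∀ f, sig d (ρ f) = L f := fun f => by rw [sig, ← (h2 f).1, ← (h2 f).2, h3, h3, hL]
    rw [← map_smul, ← map_smul, ← map_add, this, this, this, map_add, map_smul, map_smul]
    rfl
  have T0 : TD d 0 = 0 ∧ TD d 1 = 1 := by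
    obtain ⟨Ω, _, _, ρ, h1, -, h3, -⟩ := model _ (comm_adjoin_one (IsSelfAdjoint.zero D))
    exact ⟨by rw [← map_zero ρ, h3, h1.TT_zero], by rw [← map_one ρ, h3, h1.TT_one]⟩
  have dpos : ∀ x, 0 ≤ d x := fun x => by
    simpa using hd Empty Unit (fun x => x.elim) (fun _ => x) (Sub.of_eq 0 0 (Subsingleton.elim _ _))
  have key : ∀ (x : D) (c t : ℝ), 0 < c → 0 ≤ t →
      d ((c • (star x * x) - t • 1)⁺) ≤ d ((c • (x * star x) - t • 1)⁺) := by
    intro x c t hc ht
    have sa : ∀ y : D, IsSelfAdjoint y → IsSelfAdjoint (c • y - t • (1 : D)) := fun y hy =>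
      ((IsSelfAdjoint.all c).smul hy).sub ((IsSelfAdjoint.all t).smul (IsSelfAdjoint.one D))
    have e := intertwine_posPart (x := x) (sa _ (.star_mul_self x)) (sa _ (.mul_star_self x))
      (by simp [mul_sub, sub_mul, mul_assoc])
    have h1 := hd Unit Unit (fun _ => star x * x * (c • (star x * x) - t • 1)⁺)
      (fun _ => (c • (x * star x) - t • 1)⁺) (Sub.of_eq (diagonal fun _ => star x)
        (diagonal fun _ => x) (by
          rw [diagonal_mul_diagonal, diagonal_mul_diagonal, mul_assoc, e, mul_assoc]))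
    simp only [Finset.univ_unique, Finset.sum_singleton] at h1
    refine le_trans ?_ h1
    obtain ⟨Ω, _, _, ρ, m1, m2, -, m4⟩ := model _ (comm_adjoin_one (IsSelfAdjoint.star_mul_self x))
    obtain ⟨f, hf⟩ := m4 _ (StarAlgebra.self_mem_adjoin_singleton ℂ _) (.star_mul_self x)
    have hs : ∀ y, 0 < (c • f - t • (1 : C(Ω, ℝ)))⁺ y → 0 < f y := fun y hy => by
      have : t < c * f y := by simpa [posPart_def] using hy
      exact pos_of_mul_pos_right (ht.trans_lt this) hc.le
    have := m1.mono (c • f - t • 1)⁺ (f * (c • f - t • 1)⁺) (posPart_nonneg _)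
      (ContinuousMap.le_def.2 fun y => by
        rcases (show 0 ≤ (c • f - t • (1 : C(Ω, ℝ)))⁺ y from posPart_nonneg
          (c • f - t • (1 : C(Ω, ℝ))) y).eq_or_lt with h0 | h0
        · simp [← h0]
        · exact (mul_pos (hs y h0) h0).le) fun y hy => mul_pos (hs y hy) hy
    simpa only [map_mul, (m2 _).1, map_sub, map_smul, map_one, hf] using this
  have sig0 : sig d 0 = 0 := by simp [sig]
  have tsa : ∀ h : D, IsSelfAdjoint h → (sig d (ℜ h : D) : ℂ) + I * sig d (ℑ h : D) = sig d h :=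
    fun h hh => by simp [hh.coe_realPart, hh.imaginaryPart, sig0]
  have sp : ∀ h : D, 0 ≤ h → sig d h = TD d h := fun h hh => by
    rw [sig, (CFC.posPart_eq_self h).2 hh, (CFC.negPart_eq_zero_iff h).2 hh, T0.1, sub_zero]
  refine ⟨fun x => sig d (ℜ x : D) + I * sig d (ℑ x : D), ⟨fun x => ?_, fun h k hh hk => ?_,
    fun S hS => ?_⟩, ?_⟩
  · simp only [tsa _ (.star_mul_self x), tsa _ (.mul_star_self x), ofReal_im, ofReal_re, true_and,
      sp _ (star_mul_self_nonneg x), sp _ (mul_star_self_nonneg x)]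
    refine ⟨congrArg _ ?_, le_ciInf fun n => div_nonneg (tsum_nonneg fun _ => dpos _)
      (by positivity)⟩
    simp only [TD]
    congr! 5 with n i
    exact le_antisymm (key x _ _ (by positivity) (by positivity))
      (by simpa using key (star x) _ _ (by positivity) (by positivity))
  · simp only [tsa _ hh, tsa _ hk]
    simp [hh.coe_realPart, hh.imaginaryPart, hk.coe_realPart, hk.imaginaryPart]
  · have hre : ∀ x ∈ S, (ℜ x : D) ∈ S := fun x hx => by
      rw [realPart_apply_coe, ← Complex.coe_smul]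
      exact S.smul_mem (add_mem hx (star_mem hx)) _
    have him : ∀ x ∈ S, (ℑ x : D) ∈ S := fun x hx => by
      rw [imaginaryPart_apply_coe, ← Complex.coe_smul]
      exact S.smul_mem (S.smul_mem (sub_mem hx (star_mem hx)) _) _
    refine ⟨fun x hx y hy => ?_, fun c x hx => ?_⟩
    · have h1 := lin S hS _ (hre x hx) _ (hre y hy) (ℜ x).2 (ℜ y).2 1 1
      have h2 := lin S hS _ (him x hx) _ (him y hy) (ℑ x).2 (ℑ y).2 1 1
      simp only [one_smul, one_mul] at h1 h2
      simp only [map_add, AddSubgroup.coe_add, h1, h2]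
      push_cast; ring
    · have h1 := lin S hS _ (hre x hx) _ (him x hx) (ℜ x).2 (ℑ x).2 c.re (-c.im)
      have h2 := lin S hS _ (him x hx) _ (hre x hx) (ℑ x).2 (ℜ x).2 c.re c.im
      rw [neg_smul, ← sub_eq_add_neg] at h1
      simp only [realPart_smul, imaginaryPart_smul, AddSubgroup.coe_add, AddSubgroup.coe_sub,
        selfAdjoint.val_smul, h1, h2]
      nth_rw 5 [← re_add_im c]
      push_cast
      linear_combination (-(c.im * sig d (ℑ x : D)) : ℂ) * I_mul_I
  · simp only [tsa _ (IsSelfAdjoint.one D), sp 1 zero_le_one, T0.2, ofReal_one]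

end Crest.Agent.H0188
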