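import Crest.Agent.H0188.Defs

/-! Quotients of C⋆-algebras by closed two-sided ideals. -/

set_option autoImplicit false

namespace Crest.Agent.H0188

variable {A : Type} [CStarAlgebra A]

theorem exists_cut (I : Ideal A) [I.IsTwoSided] {y : A} (hy : y ∈ I) {ε : ℝ} (hε : 0 < ε) :
    ∃ f : A, IsSelfAdjoint f ∧ ‖f‖ ≤ 1 ∧ 1 - f ∈ I ∧ ‖y * f‖ ≤ ε := by
  let _ := CStarAlgebra.spectralOrder A
  have := CStarAlgebra.spectralOrderedRing A
  have h1 : ∀ t ∈ spectrum ℝ (star y * y), 0 ≤ t := fun t ht =>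
    spectrum_nonneg_of_nonneg (star_mul_self_nonneg y) ht
  have h0 : ∀ t ∈ spectrum ℝ (star y * y), 0 < ε ^ 2 + t := fun t ht =>
    add_pos_of_pos_of_nonneg (by positivity) (h1 t ht)
  have hc : ContinuousOn (fun t : ℝ => (ε ^ 2 + t)⁻¹) (spectrum ℝ (star y * y)) :=
    ContinuousOn.inv₀ (by fun_prop) fun t ht => (h0 t ht).ne'
  have hs : IsSelfAdjoint (star y * y) := .star_mul_self y
  refine ⟨cfc (fun t : ℝ => ε ^ 2 * (ε ^ 2 + t)⁻¹) (star y * y), cfc_predicate _ _,
    norm_cfc_le zero_le_one fun t ht => ?_, ?_, ?_⟩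
  · have := h1 t ht
    rw [Real.norm_of_nonneg (by positivity), ← div_eq_mul_inv, div_le_one (h0 t ht)]
    linarith
  · rw [← cfc_one ℝ (star y * y), ← cfc_sub ..,
      cfc_congr (g := fun t => (ε ^ 2 + t)⁻¹ * id t) fun t ht => by
        have := (h0 t ht).ne'
        simp only [Pi.one_apply, id]
        field_simp
        ring, cfc_mul .., cfc_id ℝ _]
    exact I.mul_mem_left _ (I.mul_mem_left _ hy)
  · refine (sq_le_sq₀ (norm_nonneg _) hε.le).1 ?_
    rw [sq ‖_‖, ← CStarRing.norm_star_mul_self, star_mul, (cfc_predicate _ _ : IsSelfAdjoint _),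
      mul_assoc, ← mul_assoc (star y)]
    generalize star y * y = z at *
    have hd : ContinuousOn (fun t : ℝ => ε ^ 2 * (ε ^ 2 + t)⁻¹) (spectrum ℝ z) :=
      continuousOn_const.mul hc
    nth_rw 2 [← cfc_id ℝ z]
    rw [← cfc_mul _ _ _ continuousOn_id hd, ← cfc_mul _ _ _ hd (by exact continuousOn_id.mul hd)]
    refine norm_cfc_le (by positivity) fun t ht => ?_
    have := h1 t ht
    have := h0 t ht
    rw [id, Real.norm_of_nonneg (by positivity)]
    field_simp
    nlinarith [sq_nonneg (ε ^ 2), sq_nonneg t, mul_nonneg (sq_nonneg ε) ‹0 ≤ t›]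

theorem star_mem_ideal (I : Ideal A) [I.IsTwoSided] (hI : IsClosed (I : Set A)) {y : A}
    (hy : y ∈ I) : star y ∈ I := by
  refine hI.closure_subset (Metric.mem_closure_iff.2 fun ε hε => ?_)
  obtain ⟨f, h1, -, h3, h4⟩ := exists_cut I hy (half_pos hε)
  refine ⟨_, I.mul_mem_right (star y) h3, ?_⟩
  rw [dist_eq_norm, sub_mul, one_mul, sub_sub_cancel, ← norm_star, star_mul, star_star, h1]
  linarith

theorem exists_quot (I : Ideal A) [I.IsTwoSided] (hI : IsClosed (I : Set A)) :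
    ∃ (B : Type) (_ : CStarAlgebra B) (π : A →⋆ₐ[ℂ] B),
      Function.Surjective π ∧ ∀ x, π x = 0 ↔ x ∈ I := by
  have hle : ∀ x, ‖Ideal.Quotient.mk I x‖ ≤ ‖x‖ := Submodule.Quotient.norm_mk_le I
  have hge : ∀ (x : A ⧸ I) (r : ℝ), (∀ a, Ideal.Quotient.mk I a = x → r ≤ ‖a‖) → r ≤ ‖x‖ :=
    fun x r => QuotientAddGroup.le_norm_iff.2
  let _ : NormedRing (A ⧸ I) :=
    { Submodule.Quotient.normedAddCommGroup I, Ideal.Quotient.ring I with
      norm_mul_le := fun x y => by
        refine le_of_forall_gt_imp_ge_of_dense fun r hr => ?_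
        obtain ⟨a, ha, b, hb, h⟩ : ∃ a, ‖x‖ < a ∧ ∃ b, ‖y‖ < b ∧ a * b < r := by
          have := (continuous_mul.tendsto (‖x‖, ‖y‖)).eventually (gt_mem_nhds hr)
          rw [nhds_prod_eq] at this
          obtain ⟨a, h1, h2⟩ := ((this.filter_mono (Filter.prod_mono
            (nhdsWithin_le_nhds (s := Set.Ioi ‖x‖)) (nhdsWithin_le_nhds (s := Set.Ioi ‖y‖)))).and
              (Filter.prod_mem_prod self_mem_nhdsWithin self_mem_nhdsWithin)).exists
          exact ⟨a.1, h2.1, a.2, h2.2, h1⟩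
        obtain ⟨c, rfl, hc⟩ := QuotientAddGroup.norm_lt_iff.1 ha
        obtain ⟨d, rfl, hd⟩ := QuotientAddGroup.norm_lt_iff.1 hb
        exact ((hle (c * d)).trans ((norm_mul_le c d).trans
          (mul_le_mul hc.le hd.le (norm_nonneg _) ((norm_nonneg _).trans hc.le)))).trans h.le }
  let _ : StarRing (A ⧸ I) :=
    { star := Quotient.map' star fun a b h => by
        rw [Submodule.quotientRel_def] at h ⊢
        simpa using star_mem_ideal I hI h
      star_involutive := by rintro ⟨x⟩; exact congrArg (Ideal.Quotient.mk I) (star_star x)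
      star_mul := by rintro ⟨x⟩ ⟨y⟩; exact congrArg (Ideal.Quotient.mk I) (star_mul x y)
      star_add := by rintro ⟨x⟩ ⟨y⟩; exact congrArg (Ideal.Quotient.mk I) (star_add x y) }
  let _ : NormedAlgebra ℂ (A ⧸ I) :=
    { Submodule.Quotient.normedSpace I ℂ, Ideal.Quotient.algebra ℂ with }
  have : StarModule ℂ (A ⧸ I) :=
    ⟨by rintro c ⟨x⟩; exact congrArg (Ideal.Quotient.mk I) (star_smul c x)⟩
  have : CStarRing (A ⧸ I) := ⟨fun x => by
    obtain ⟨x, rfl⟩ := Ideal.Quotient.mk_surjective x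
    refine hge _ _ fun a ha => le_of_forall_pos_le_add fun ε hε => ?_
    obtain ⟨f, h1, h2, h3, h4⟩ := exists_cut I (Ideal.Quotient.eq.1
      (show Ideal.Quotient.mk I (star x * x) = Ideal.Quotient.mk I a from ha.symm)) hε
    have e : Ideal.Quotient.mk I x = Ideal.Quotient.mk I (x * f) := Ideal.Quotient.eq.2 (by
      simpa [mul_sub] using I.mul_mem_left x h3)
    have h5 : ∀ z, ‖f * z‖ ≤ ‖z‖ := fun z =>
      (norm_mul_le _ _).trans (mul_le_of_le_one_left (norm_nonneg _) h2)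
    calc _ ≤ ‖x * f‖ * ‖x * f‖ := e ▸ mul_self_le_mul_self (norm_nonneg _) (hle _)
      _ = ‖f * (a * f + (star x * x - a) * f)‖ := by
        rw [← CStarRing.norm_star_mul_self, star_mul, h1]
        congr 1
        noncomm_ring
      _ ≤ _ := (h5 _).trans ((norm_add_le _ _).trans (add_le_add ((norm_mul_le _ _).trans
        (mul_le_of_le_one_right (norm_nonneg _) h2)) h4))⟩
  exact ⟨A ⧸ I, {}, { Ideal.Quotient.mkₐ ℂ I with map_star' := fun _ => rfl },
    Ideal.Quotient.mk_surjective, fun _ => Ideal.Quotient.eq_zero_iff_mem⟩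

end Crest.Agent.H0188
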