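import Crest.Agent.H0188.State

/-! A Cuntz type subequivalence of finite families and dimension functions. -/

set_option autoImplicit false
set_option linter.unusedSectionVars false

namespace Crest.Agent.H0188

open Matrix

variable {D : Type} [NormedRing D] {ι κ μ : Type} [Fintype ι] [Fintype κ] [Fintype μ]
  [DecidableEq ι] [DecidableEq κ] [DecidableEq μ]

/-- `diag a` is a limit of products `x * diag b * y` -/
def Sub (a : ι → D) (b : κ → D) : Prop :=
  diagonal a ∈ closure {M : Matrix ι ι D | ∃ (x : Matrix ι κ D) (y : Matrix κ ι D),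
    M = x * diagonal b * y}

theorem Sub.of_eq {a : ι → D} {b : κ → D} (x : Matrix ι κ D) (y : Matrix κ ι D)
    (h : diagonal a = x * diagonal b * y) : Sub a b := subset_closure ⟨x, y, h⟩

theorem Sub.trans {a : ι → D} {b : κ → D} {c : μ → D} (h1 : Sub a b) (h2 : Sub b c) :
    Sub a c := by
  refine closure_minimal ?_ isClosed_closure h1
  rintro _ ⟨x, y, rfl⟩
  refine map_mem_closure (f := fun M : Matrix κ κ D => x * M * y) (by fun_prop) h2 ?_
  rintro _ ⟨x', y', rfl⟩
  exact ⟨x * x', y' * y, by simp only [Matrix.mul_assoc]⟩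

theorem Sub.of_inj {a : ι → D} {b : κ → D} (f : ι → κ) (hf : Function.Injective f)
    (h : ∀ i, b (f i) = a i) : Sub a b := by
  refine Sub.of_eq ((1 : Matrix κ κ D).submatrix f id) ((1 : Matrix κ κ D).submatrix id f) ?_
  ext i j
  simp [Matrix.mul_apply, one_apply, diagonal_apply, hf.eq_iff, h, eq_comm]
  split_ifs with e <;> simp [e]

theorem Sub.sum {a : ι → D} {b : κ → D} (h : Sub a b) (c : μ → D) :
    Sub (Sum.elim a c) (Sum.elim b c) := by
  rw [Sub, ← fromBlocks_diagonal a]
  refine map_mem_closure (f := fun M : Matrix ι ι D => fromBlocks M 0 0 (diagonal c))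
    (continuous_id.matrix_fromBlocks continuous_const continuous_const continuous_const) h ?_
  rintro _ ⟨x, y, rfl⟩
  refine ⟨fromBlocks x 0 0 1, fromBlocks y 0 0 1, ?_⟩
  simp [← fromBlocks_diagonal, fromBlocks_multiply]

theorem Sub.map {D' : Type} [NormedRing D'] (φ : D →+* D') (hφ : Continuous φ) {a : ι → D}
    {b : κ → D} (h : Sub a b) : Sub (fun i => φ (a i)) (fun j => φ (b j)) := by
  rw [Sub, ← diagonal_map (d := a) (map_zero φ)]
  refine map_mem_closure (f := fun M : Matrix ι ι D => M.map φ) (continuous_id.matrix_map hφ) h ?_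
  rintro _ ⟨x, y, rfl⟩
  exact ⟨x.map φ, y.map φ, by simp only [Matrix.map_mul, diagonal_map (map_zero φ)]⟩

theorem sub_of_sum_eq {a : ι → D} {b : κ → D}
    (h : ∑ i, ({a i} : Multiset D) = ∑ j, ({b j} : Multiset D)) : Sub a b := by
  classical
  have hc : ∀ x, Fintype.card {i // a i = x} = Fintype.card {j // b j = x} := fun x => by
    have := congrArg (Multiset.count x) h
    simp only [Multiset.count_sum', Multiset.count_singleton, Finset.sum_boole, Nat.cast_id] at this
    simpa only [Fintype.card_subtype, eq_comm] using this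
  exact Sub.of_inj (Equiv.ofFiberEquiv fun x => Fintype.equivOfCardEq (hc x)) (Equiv.injective _)
    (Equiv.ofFiberEquiv_map _)

open scoped Matrix.Norms.Operator in
theorem le_of_sub_one [CompleteSpace D] (h : NP D) (j k : ℕ)
    (hs : Sub (fun _ : Fin j => (1 : D)) (fun _ : Fin k => (1 : D))) : j ≤ k := by
  have : @CompleteSpace (Matrix (Fin j) (Fin j) D) PseudoMetricSpace.toUniformSpace :=
    (inferInstance : CompleteSpace (Fin j → Fin j → D))
  obtain ⟨_, hu, x, y, rfl⟩ := mem_closure_iff.1 hs _ Units.isOpen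
    (show IsUnit _ by rw [diagonal_one]; exact isUnit_one)
  obtain ⟨v, hv⟩ := hu.exists_right_inv
  exact h j k x (y * v) (by rw [← hv, diagonal_one, Matrix.mul_one, Matrix.mul_assoc])

theorem exists_dim [CompleteSpace D] (h : NP D) : ∃ d : D → ℝ, d 1 = 1 ∧
    ∀ (ι κ : Type) [Fintype ι] [Fintype κ] [DecidableEq ι] [DecidableEq κ] (a : ι → D) (b : κ → D),
      Sub a b → ∑ i, d (a i) ≤ ∑ j, d (b j) := by
  classical
  let r : Multiset D → Multiset D → Prop := fun s t =>
    Sub (fun x : s => (x : D)) (fun x : t => (x : D))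
  have hs : ∀ s : Multiset D, ∑ x : s, ({(x : D)} : Multiset D) = s := fun s => by
    rw [Finset.sum_eq_multiset_sum, Multiset.map_univ s (fun x => ({x} : Multiset D)),
      Multiset.sum_map_singleton]
  have riff : ∀ (ι κ : Type) [Fintype ι] [Fintype κ] [DecidableEq ι] [DecidableEq κ] (a : ι → D)
      (b : κ → D), r (∑ i, {a i}) (∑ j, {b j}) ↔ Sub a b := fun ι κ _ _ _ _ a b =>
    ⟨fun h => ((sub_of_sum_eq (hs _).symm).trans h).trans (sub_of_sum_eq (hs _)),
      fun h => ((sub_of_sum_eq (hs _)).trans h).trans (sub_of_sum_eq (hs _).symm)⟩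
  have hn : ∀ k : ℕ, k • ({1} : Multiset D) = ∑ _i : Fin k, {1} := fun k => by simp
  obtain ⟨d, h1, h2, h3⟩ := exists_state r {1} (fun a => sub_of_sum_eq rfl)
    (fun a b c => Sub.trans) (fun a b c hab => by
      have := (riff _ _ _ _).2 (Sub.sum hab fun x : c => (x : D))
      simpa only [Fintype.sum_sum_type, Sum.elim_inl, Sum.elim_inr, hs] using this)
    (fun a => by
      have := (riff _ _ (fun x : Empty => (x.elim : D)) (fun x : a => (x : D))).2
        (Sub.of_inj (fun x => x.elim) (fun x => x.elim) fun x => x.elim)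
      simpa [hs] using this)
    (fun a => ⟨Fintype.card a, by
      have := (riff _ _ (fun x : a => (x : D)) (fun _ : a => (1 : D))).2
        (Sub.of_eq (diagonal fun x : a => (x : D)) 1 (by simp))
      simpa [hs] using this⟩)
    (fun j k hjk => le_of_sub_one h j k ((riff _ _ _ _).1 (by rwa [← hn, ← hn])))
  have d0 : d 0 = 0 := by simpa using h2 0 0
  let φ : Multiset D →+ ℝ := ⟨⟨d, d0⟩, h2⟩
  refine ⟨fun x => d {x}, h3, fun ι κ _ _ _ _ a b hab => ?_⟩
  have := h1 _ _ ((riff _ _ a b).2 hab)
  exact (map_sum φ _ _).symm.trans_le (this.trans_eq (map_sum φ _ _))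

end Crest.Agent.H0188
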