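import Crest.Agent.H0188.Defs

/-! States on preordered commutative monoids with an order unit. -/

set_option autoImplicit false

namespace Crest.Agent.H0188

variable {W : Type} [AddCommMonoid W]

/-- admissible functions -/
structure Adm (r : W → W → Prop) (u : W) (s : W → ℝ) : Prop where
  mono : ∀ a b, r a b → s a ≤ s b
  sub : ∀ a b, s (a + b) ≤ s a + s b
  zero : s 0 = 0
  unit : ∀ a, s (a + u) = s a + 1

theorem Adm.nsmul_le {r : W → W → Prop} {u : W} {s : W → ℝ} (h : Adm r u s) (k : ℕ) (a : W) :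
    s (k • a) ≤ k * s a := by
  induction k with
  | zero => simp [h.zero]
  | succ k ih =>
    rw [succ_nsmul]
    push_cast
    linarith [h.sub (k • a) a]

theorem Adm.add_nsmul {r : W → W → Prop} {u : W} {s : W → ℝ} (h : Adm r u s) (k : ℕ) (a : W) :
    s (a + k • u) = s a + k := by
  induction k with
  | zero => simp
  | succ k ih => rw [succ_nsmul, ← add_assoc, h.unit, ih]; push_cast; ring

theorem inf_adm {r : W → W → Prop} {u : W} {ι : Type} [Nonempty ι] (F : ι → W → ℝ)
    (h0 : ∀ i a, 0 ≤ F i a) (mono : ∀ i a b, r a b → F i a ≤ F i b)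
    (sub : ∀ i j a b, ∃ k, F k (a + b) ≤ F i a + F j b) (zero : ∃ i, F i 0 = 0)
    (unit : ∀ i a, F i (a + u) = F i a + 1) : Adm r u fun a => ⨅ i, F i a := by
  have bdd : ∀ a, BddBelow (Set.range fun i => F i a) := fun a => ⟨0, by
    rintro _ ⟨i, rfl⟩; exact h0 i a⟩
  refine ⟨fun a b hab => ciInf_mono (bdd a) fun i => mono i a b hab, fun a b => ?_, ?_,
    fun a => ?_⟩
  · rw [← sub_le_iff_le_add]
    refine le_ciInf fun i => ?_
    rw [sub_le_comm]
    refine le_ciInf fun j => ?_
    obtain ⟨k, hk⟩ := sub i j a b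
    linarith [ciInf_le (bdd (a + b)) k]
  · obtain ⟨i, hi⟩ := zero
    exact le_antisymm (hi ▸ ciInf_le (bdd 0) i) (le_ciInf fun i => h0 i 0)
  · simp only [unit]
    exact (ciInf_add (bdd a) 1).symm

theorem exists_state (r : W → W → Prop) (u : W) (rrefl : ∀ a, r a a)
    (rtrans : ∀ a b c, r a b → r b c → r a c) (radd : ∀ a b c, r a b → r (a + c) (b + c))
    (r0 : ∀ a, r 0 a) (runit : ∀ a, ∃ k : ℕ, r a (k • u))
    (rnp : ∀ j k : ℕ, r (j • u) (k • u) → j ≤ k) :
    ∃ d : W → ℝ, (∀ a b, r a b → d a ≤ d b) ∧ (∀ a b, d (a + b) = d a + d b) ∧ d u = 1 := by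
  have rle : ∀ a b, r a (b + a) := fun a b => by simpa using radd 0 b a (r0 b)
  have pos : ∀ s, Adm r u s → ∀ a, 0 ≤ s a := fun s h a => h.zero ▸ h.mono 0 a (r0 a)
  -- an initial admissible function
  let P : W → Set ℝ := fun a => {t | ∃ j k : ℕ, r (a + j • u) (k • u) ∧ t = (k : ℝ) - j}
  have Pne : ∀ a, (P a).Nonempty := fun a => by
    obtain ⟨k, hk⟩ := runit a
    exact ⟨_, 0, k, by simpa using hk, rfl⟩
  have Ppos : ∀ a, ∀ t ∈ P a, 0 ≤ t := by
    rintro a t ⟨j, k, h, rfl⟩
    exact sub_nonneg.2 (Nat.cast_le.2 (rnp j k (rtrans _ _ _ (rle _ _) h)))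
  have Pb : ∀ a, BddBelow (P a) := fun a => ⟨0, Ppos a⟩
  have h0 : Adm r u fun a => sInf (P a) := by
    refine ⟨fun a b hab => csInf_le_csInf (Pb a) (Pne b) ?_, fun a b => ?_, ?_, fun a => ?_⟩
    · rintro t ⟨j, k, h, rfl⟩
      exact ⟨j, k, rtrans _ _ _ (radd _ _ _ hab) h, rfl⟩
    · rw [← sub_le_iff_le_add]
      refine le_csInf (Pne a) ?_
      rintro _ ⟨j, k, h, rfl⟩
      rw [sub_le_comm]
      refine le_csInf (Pne b) ?_
      rintro _ ⟨j', k', h', rfl⟩
      have : ((k + k' : ℕ) : ℝ) - (j + j' : ℕ) ∈ P (a + b) := by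
        refine ⟨j + j', k + k', ?_, rfl⟩
        have e1 := radd _ _ (b + j' • u) h
        have e2 := radd _ _ (k • u) h'
        rw [add_nsmul, add_nsmul, show a + b + (j • u + j' • u) = a + j • u + (b + j' • u) by abel,
          add_comm (k • u)]
        exact rtrans _ _ _ e1 (by rwa [add_comm (k • u)])
      have := csInf_le (Pb _) this
      push_cast at this
      linarith
    · exact le_antisymm (csInf_le (Pb 0) ⟨0, 0, by simpa using rrefl 0, by simp⟩)
        (le_csInf (Pne 0) (Ppos 0))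
    · refine le_antisymm ?_ ?_
      · rw [← sub_le_iff_le_add]
        refine le_csInf (Pne a) ?_
        rintro _ ⟨j, k, h, rfl⟩
        have : ((k + 1 : ℕ) : ℝ) - j ∈ P (a + u) := ⟨j, k + 1, by
          rw [succ_nsmul, add_right_comm]; exact radd _ _ _ h, rfl⟩
        have := csInf_le (Pb _) this
        push_cast at this
        linarith
      · refine le_csInf (Pne _) ?_
        rintro _ ⟨j, k, h, rfl⟩
        have : (k : ℝ) - (j + 1 : ℕ) ∈ P a := ⟨j + 1, k, by
          rwa [succ_nsmul, add_comm (j • u), ← add_assoc], rfl⟩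
        have := csInf_le (Pb _) this
        push_cast at this
        linarith
  -- a minimal admissible function
  obtain ⟨s, -, hs⟩ := zorn_le_nonempty₀ (α := (W → ℝ)ᵒᵈ) {s | Adm r u s} (fun c hc hch y hy => by
    have : Nonempty c := ⟨⟨y, hy⟩⟩
    refine ⟨fun a => ⨅ i : c, i.1 a, inf_adm (fun (i : c) a => i.1 a) (fun i => pos _ (hc i.2))
      (fun i => (hc i.2).mono) (fun i j a b => ?_) ⟨⟨y, hy⟩, (hc hy).zero⟩
      (fun i => (hc i.2).unit), fun z hz a => ?_⟩
    · rcases hch.total i.2 j.2 with h | h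
      · exact ⟨j, ((hc j.2).sub a b).trans (add_le_add_left (h a) _)⟩
      · exact ⟨i, ((hc i.2).sub a b).trans (add_le_add_right (h b) _)⟩
    · exact ciInf_le (f := fun i : c => i.1 a) ⟨0, by
        rintro _ ⟨i, rfl⟩; exact pos _ (hc i.2) a⟩ ⟨z, hz⟩) _ h0
  have hs1 : Adm r u s := hs.1
  have hmin : ∀ t, Adm r u t → (∀ a, t a ≤ s a) → ∀ a, s a ≤ t a := fun t ht h => hs.2 ht h
  have rns : ∀ (k : ℕ) a b, r a b → r (k • a) (k • b) := fun k a b h => by
    induction k with
    | zero => simpa using rrefl 0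
    | succ k ih =>
      rw [succ_nsmul, succ_nsmul]
      exact rtrans _ _ _ (radd _ _ _ ih) (by simpa only [add_comm] using radd _ _ (k • b) h)
  -- homogeneity
  have hom : ∀ (k : ℕ) a, s (k • a) = k * s a := by
    have hA := inf_adm (r := r) (u := u) (fun (k : ℕ) a => s ((k + 1) • a) / (k + 1))
      (fun k a => div_nonneg (pos s hs1 _) (by positivity))
      (fun k a b h => div_le_div_of_nonneg_right (hs1.mono _ _ (rns _ _ _ h)) (by positivity))
      (fun i j a b => ⟨(i + 1) * (j + 1) - 1, by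
        have e : (i + 1) * (j + 1) - 1 + 1 = (i + 1) * (j + 1) := Nat.sub_add_cancel (by
          exact Nat.one_le_iff_ne_zero.2 (by positivity))
        have e' : (((i + 1) * (j + 1) - 1 : ℕ) : ℝ) + 1 = (i + 1) * (j + 1) := by exact_mod_cast e
        rw [e, e', nsmul_add, div_le_iff₀ (by positivity)]
        have h1 := hs1.nsmul_le (j + 1) ((i + 1) • a)
        have h2 := hs1.nsmul_le (i + 1) ((j + 1) • b)
        rw [← mul_nsmul] at h1 h2
        rw [mul_comm (j + 1)] at h2
        refine (hs1.sub _ _).trans ((add_le_add h1 h2).trans (le_of_eq ?_))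
        push_cast
        field_simp⟩) ⟨0, by simp [hs1.zero]⟩
      (fun k a => by rw [nsmul_add, hs1.add_nsmul]; push_cast; field_simp)
    have bdd : ∀ a, BddBelow (Set.range fun k : ℕ => s ((k + 1) • a) / (k + 1)) := fun a => ⟨0, by
      rintro _ ⟨k, rfl⟩; exact div_nonneg (pos s hs1 _) (by positivity)⟩
    intro k a
    refine le_antisymm (hs1.nsmul_le k a) ?_
    rcases k with _ | k
    · simp [hs1.zero]
    have := (hmin _ hA (fun a => (ciInf_le (bdd a) 0).trans (by simp)) a).trans (ciInf_le (bdd a) k)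
    rw [le_div_iff₀ (by positivity)] at this
    push_cast
    linarith
  refine ⟨s, hs1.mono, fun a b => le_antisymm (hs1.sub a b) ?_, by simpa [hs1.zero] using hs1.unit 0⟩
  have hp : ∀ (k : ℕ) x, 0 ≤ s (x + k • b) - k * s b := fun k x => by
    rw [← hom]; exact sub_nonneg.2 (hs1.mono _ _ (rle _ _))
  have hA := inf_adm (r := r) (u := u) (fun (k : ℕ) x => s (x + k • b) - k * s b) hp
    (fun k x y h => sub_le_sub_right (hs1.mono _ _ (radd _ _ _ h)) _)
    (fun i j x y => ⟨i + j, by
      have := hs1.sub (x + i • b) (y + j • b)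
      rw [add_nsmul, show x + y + (i • b + j • b) = x + i • b + (y + j • b) by abel]
      push_cast
      linarith⟩) ⟨0, by simp [hs1.zero]⟩
    (fun k x => by rw [add_right_comm, hs1.unit]; ring)
  have bdd : ∀ x, BddBelow (Set.range fun k : ℕ => s (x + k • b) - k * s b) := fun x => ⟨0, by
    rintro _ ⟨k, rfl⟩; exact hp k x⟩
  have := (hmin _ hA (fun x => (ciInf_le (bdd x) 0).trans (by simp)) a).trans (ciInf_le (bdd a) 1)
  simp only [one_nsmul, Nat.cast_one, one_mul] at this
  linarith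

end Crest.Agent.H0188
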